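import Claimed.Agent.R282.Sched.Simplify

/-!
# Row 282, package BP-S34-D (Lemma 3.4 and closedness): definitions and PLAN

Architect: helper234.  All names of the package carry the prefix `sd_` / `Sd`.
Goal: `sd_reduce_generic` (= contract `s34_reduce_generic`) and `sd_aug_closed`
(= contract `s34_aug_closed`), both in `D/Top.lean`.  Everything is paper-free.

## Sections of this file (formerly one file per leaf; merged for the file budget)

* `Reparam` (L-S34D-1)  a schedule only sees `θ.val` at its switch times, `θ.sum`, `θ.length`;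
  halving: `HasIntSchedule lam θ.halve xi → HasIntSchedule lam θ xi` (times `t ↦ t / 2`).
* `Bound`   (L-S34D-2)  an integral schedule on a generic shape can be replaced by one with at most
  `|ξ|² / 2` switches: make it strict (`sc_simplify_integral`); gaps and `tot - m` are then
  integers `≥ 1`; the potential `|c + f μ|²` grows by `2 (tot - m) G ≥ 2` at every switch
  (`sc_virtual_norm`) and ends at `|ξ|²`.
* `Limit`   (L-S34D-3)  limit of schedules with a FIXED root list and a FIXED initial frame along an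
  ultrafilter (no subsequences): induction on the root list.
* `Closed`  (L-S34D-4)  pigeonhole along the ultrafilter (finitely many `(w0, roots, w)`), limits of
  integers: closedness of `HasIntSchedule` under entrywise convergence of shapes.
* `PrimRel` (L-S34D-5)  a primitive integral relation among `n+1` roots generating `Q(D_n)` is unique
  up to sign (rank-nullity + gcd).
* `Aug`     (L-S34D-6)  `IsClosed {x | AugAt lam θ xi x}` from `Limit` and `PrimRel`.
* `Avoid`   (L-S34D-7)  a ball of the face is not covered by countably many proper affine hyperplanes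
  (Lebesgue measure on `Fin n → ℝ`, pulled back by a linear projection onto the face).
* `Face`    (L-S34D-8)  at most one zero coordinate of `μ`: two root forms that do not vanish at `μ` are
  equal up to sign on the face or linearly independent on the face.
* `Step`    (L-S34D-9)  choice of one break value; the sequence of break values.
* `Seg`     (L-S34D-10) the avoided hyperplanes give `single`; a sequence of break values gives a
  `GenericShape`.
* `Dense`   (L-S34D-11) interpolation with the straight shape, constants: generic shapes are dense.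
* `Top`     glue (proved).
-/

set_option autoImplicit false

namespace Claimed.Agent.R282

variable {n : ℕ}

section SdDefs

/-- relative interior of the face of `mu` -/
def SdRelInt (mu v : Vec n) : Prop :=
  InFace mu v ∧ ∀ β : RootD n, 0 < dot β.vec mu → 0 < dot β.vec v

/-- `x` lies on no half-integral level set of a root form that does not vanish at `mu` -/
def SdNoLevel (mu x : Vec n) : Prop :=
  ∀ β : RootD n, dot β.vec mu ≠ 0 → ¬ HalfInt (dot β.vec x)

/-- the two root forms agree up to sign on the face of `mu` -/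
def SdFaceEq (mu : Vec n) (β γ : RootD n) : Prop :=
  (∀ x, InFace mu x → dot β.vec x = dot γ.vec x) ∨
    (∀ x, InFace mu x → dot β.vec x = - dot γ.vec x)

/-- `q` avoids the countably many hyperplanes through `p` on which two essentially different root
forms can be half-integral at the same point of the line through `p` and `q`. -/
def SdSegAvoid (mu p q : Vec n) : Prop :=
  ∀ β γ : RootD n, dot β.vec mu ≠ 0 → dot γ.vec mu ≠ 0 → ¬ SdFaceEq mu β γ → ∀ a b : ℤ,
    (a : ℝ) / 2 - dot β.vec p ≠ 0 →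
    ((a : ℝ) / 2 - dot β.vec p) * dot γ.vec (q - p)
      - ((b : ℝ) / 2 - dot γ.vec p) * dot β.vec (q - p) ≠ 0

/-- the condition `single` on the open segment from `p` to `q` -/
def SdSegOK (mu p q : Vec n) : Prop :=
  ∀ s : ℝ, 0 < s → s < 1 → ∀ β γ : RootD n, dot β.vec mu ≠ 0 → dot γ.vec mu ≠ 0 →
    HalfInt (dot β.vec (p + s • (q - p))) → HalfInt (dot γ.vec (p + s • (q - p))) →
      SdFaceEq mu β γ

/-- the shape with break values `x 0, x 1, …, x T` -/
def sdShape (T : ℕ) (x : ℕ → Vec n) : Shape n := List.ofFn (fun k : Fin T => x (k + 1) - x k)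

/-- change of the time parameter of a list of switches -/
def sdMapT (φ : ℝ → ℝ) (l : List (ℝ × RootD n)) : List (ℝ × RootD n) :=
  l.map (fun p => (φ p.1, p.2))

end SdDefs

/-!
# Row 282, BP-S34-D, leaf L-S34D-1: change of the time parameter, halving

All proofs: induction on the list of switches, generalising the state; `SwState.step`,
`SwState.coeff`, `SwState.gap`, `SwState.total` only see `θ.val t` and `θ.sum`.
-/

section SdReparam

theorem sd_reparam_step (θ θ' : Shape n) (φ : ℝ → ℝ) (hval : ∀ t, θ'.val t = θ.val (φ t))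
    (S : SwState n) (t : ℝ) (β : RootD n) : S.step θ (φ t) β = S.step θ' t β := by
  simp only [SwState.step, SwState.coeff, hval]

theorem sd_reparam_run (θ θ' : Shape n) (φ : ℝ → ℝ) (hval : ∀ t, θ'.val t = θ.val (φ t))
    (S : SwState n) (l : List (ℝ × RootD n)) :
    runSw θ S (sdMapT φ l) = runSw θ' S l := by
  induction l generalizing S with
  | nil => rfl
  | cons p l ih =>
    simp only [sdMapT, List.map_cons, runSw] at ih ⊢
    rw [sd_reparam_step θ θ' φ hval]
    exact ih _

theorem sd_reparam_valid (θ θ' : Shape n) (φ : ℝ → ℝ) (hval : ∀ t, θ'.val t = θ.val (φ t))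
    (hsum : θ'.sum = θ.sum) (S : SwState n) (l : List (ℝ × RootD n)) :
    SwValid θ S (sdMapT φ l) ↔ SwValid θ' S l := by
  induction l generalizing S with
  | nil => rfl
  | cons p l ih =>
    simp only [sdMapT, List.map_cons, SwValid] at ih ⊢
    rw [sd_reparam_step θ θ' φ hval, ih]
    simp only [SwState.gap, SwState.pos, SwState.total, hval, hsum]

theorem sd_reparam_integral (θ θ' : Shape n) (φ : ℝ → ℝ) (hval : ∀ t, θ'.val t = θ.val (φ t))
    (S : SwState n) (l : List (ℝ × RootD n)) :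
    SwIntegral θ S (sdMapT φ l) ↔ SwIntegral θ' S l := by
  induction l generalizing S with
  | nil => rfl
  | cons p l ih =>
    simp only [sdMapT, List.map_cons, SwIntegral] at ih ⊢
    rw [sd_reparam_step θ θ' φ hval, ih]
    simp only [SwState.coeff, hval]

/-- D1: integral schedules of the subdivided shape give integral schedules of the shape -/
theorem sd_halve (lam xi : Vec n) (θ : Shape n) (h : HasIntSchedule lam θ.halve xi) :
    HasIntSchedule lam θ xi := by
  obtain ⟨w0, l, hs, hi⟩ := h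
  have hval : ∀ t, θ.halve.val t = θ.val (t / 2) := fun t => by
    rw [← sc_halve_val θ (t / 2)]
    congr 1
    ring
  have hsum := sc_halve_sum θ
  refine ⟨w0, sdMapT (fun t => t / 2) l, ⟨?_, ?_, ?_, ?_⟩, ?_⟩
  · intro p hp
    obtain ⟨q, hq, rfl⟩ := List.mem_map.1 hp
    have := hs.times_mem q hq
    rw [sc_halve_length] at this
    push_cast at this
    constructor <;> simp only <;> linarith [this.1, this.2]
  · unfold sdMapT
    rw [List.pairwise_map]
    exact hs.sorted.imp fun {a b} hab => by simp only; linarith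
  · exact (sd_reparam_valid θ θ.halve _ hval hsum _ l).2 hs.valid
  · obtain ⟨w, hw⟩ := hs.endpoint
    refine ⟨w, ?_⟩
    rw [sd_reparam_run θ θ.halve _ hval, ← hw]
    simp only [SwState.pos, sc_val_length, hsum]
  · exact (sd_reparam_integral θ θ.halve _ hval _ l).2 hi

end SdReparam

/-!
# Row 282, BP-S34-D, leaf L-S34D-2: the number of strict switches of an integral schedule

Proof of `sd_bound`.  `sc_simplify_integral` gives `(w0, l)` integral and `SwStrict`.
Put `S_i = stAt θ ⟨w0.act, lam⟩ l i`, `Y_i = S_i.c + S_i.frame θ.sum`.  For `i < l.length`: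
* `G_i = S_i.gap θ l[i].1 l[i].2` is a member of `swGaps` (`sc_gaps_get`), an integral (`sc_gap_total_int`)
  positive number, so `1 ≤ G_i`;
* `tot_i` is integral (same lemmas), `m_i` is integral (`sd_integral_iff`, `sc_coeffs_get`), and
  `m_i < tot_i` by `sc_coeff_interior` (frames: `sc_isFrame_stAt`), so `1 ≤ tot_i - m_i`;
* `dot Y_{i+1} Y_{i+1} = dot Y_i Y_i + 2 (tot_i - m_i) G_i` (`sc_stAt_succ`, `sc_virtual_norm`).
Induction: `2 i ≤ dot Y_i Y_i`.  Finally `Y_len = pos θ T = w.act xi` (`sc_stAt_length`, `sc_val_length`)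
and `sc_dot_WD_act`.
-/

section SdBound

theorem sd_integral_iff (θ : Shape n) (S : SwState n) (l : List (ℝ × RootD n)) :
    SwIntegral θ S l ↔ ∀ i, ∃ z : ℤ, (swCoeffs θ S l).getD i 0 = z := by
  induction l generalizing S with
  | nil =>
    simp only [SwIntegral, swCoeffs, List.getD_nil, true_iff]
    exact fun _ => ⟨0, by simp⟩
  | cons p l ih =>
    simp only [SwIntegral, swCoeffs, ih]
    constructor
    · rintro ⟨h0, h1⟩ i
      cases i with
      | zero => simpa using h0
      | succ i => simpa using h1 i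
    · intro h
      exact ⟨by simpa using h 0, fun i => by simpa using h (i + 1)⟩

theorem sd_one_le_of_int_pos (x : ℝ) (hx : ∃ z : ℤ, x = z) (h : 0 < x) : 1 ≤ x := by
  obtain ⟨z, rfl⟩ := hx
  have : (0 : ℤ) < z := by exact_mod_cast h
  exact_mod_cast this

/-- D2 -/
theorem sd_bound (lam xi : Vec n) (θ : Shape n) (wl : IsWtD lam) (wm : IsWtD θ.sum)
    (G : GenericShape θ) (h : HasIntSchedule lam θ xi) :
    ∃ w0 l, IsSchedule lam θ xi w0 l ∧ SwIntegral θ ⟨w0.act, lam⟩ l ∧
      2 * (l.length : ℝ) ≤ dot xi xi := by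
  obtain ⟨w0, l, hs, hi, hst⟩ := sc_simplify_integral lam xi θ G.dom h
  refine ⟨w0, l, hs, hi, ?_⟩
  obtain ⟨hgi, hti⟩ := sc_gap_total_int lam θ w0 l wl wm hi
  obtain ⟨htime, hgpos, htpos⟩ := hst
  generalize hS0 : (⟨w0.act, lam⟩ : SwState n) = S0 at *
  have hfr : IsFrame S0.frame := by rw [← hS0]; exact sc_isFrame_act w0
  have key : ∀ i, i ≤ l.length → 2 * (i : ℝ) ≤
      dot ((stAt θ S0 l i).c + (stAt θ S0 l i).frame θ.sum)
        ((stAt θ S0 l i).c + (stAt θ S0 l i).frame θ.sum) := by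
    intro i
    induction i with
    | zero =>
      intro _
      simpa using sc_dot_self_nonneg _
    | succ i ih =>
      intro hi'
      have hlt : i < l.length := hi'
      have ih' := ih hlt.le
      rw [sc_stAt_succ θ S0 l i hlt, sc_virtual_norm]
      have hG : 1 ≤ (stAt θ S0 l i).gap θ l[i].1 l[i].2 := by
        rw [← sc_gaps_get θ S0 l i hlt]
        have hmem : (swGaps θ S0 l).getD i 0 ∈ swGaps θ S0 l := by
          rw [List.getD_eq_getElem _ _ (by rw [sc_gaps_length]; exact hlt)]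
          exact List.getElem_mem _
        exact sd_one_le_of_int_pos _ (hgi _ hmem) (hgpos _ hmem)
      have hmemT : (swTotals θ S0 l).getD i 0 ∈ swTotals θ S0 l := by
        rw [List.getD_eq_getElem _ _ (by rw [sc_totals_length]; exact hlt)]
        exact List.getElem_mem _
      have hTpos : 0 < (stAt θ S0 l i).total θ l[i].2 := by
        rw [← sc_totals_get θ S0 l i hlt]
        exact htpos _ hmemT
      have hD : 1 ≤ (stAt θ S0 l i).total θ l[i].2 - (stAt θ S0 l i).coeff θ l[i].1 l[i].2 := by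
        apply sd_one_le_of_int_pos
        · obtain ⟨z1, hz1⟩ := hti _ hmemT
          obtain ⟨z2, hz2⟩ := (sd_integral_iff θ S0 l).1 hi i
          rw [sc_totals_get θ S0 l i hlt] at hz1
          rw [sc_coeffs_get θ S0 l i hlt] at hz2
          exact ⟨z1 - z2, by rw [hz1, hz2]; push_cast; ring⟩
        · have ht := htime l[i] (List.getElem_mem _)
          have := (sc_coeff_interior θ G (stAt θ S0 l i) (sc_isFrame_stAt θ S0 hfr l i) l[i].2
            hTpos l[i].1 ht.1 ht.2).2
          linarith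
      have hprod : 1 ≤ ((stAt θ S0 l i).total θ l[i].2 - (stAt θ S0 l i).coeff θ l[i].1 l[i].2)
          * (stAt θ S0 l i).gap θ l[i].1 l[i].2 := by nlinarith
      push_cast
      nlinarith
  have hend := key l.length le_rfl
  rw [sc_stAt_length] at hend
  obtain ⟨w, hw⟩ := hs.endpoint
  simp only [SwState.pos] at hw
  rw [sc_val_length, hS0] at hw
  rw [hw, sc_dot_WD_act] at hend
  exact hend

end SdBound

/-!
# Row 282, BP-S34-D, leaf L-S34D-3: limits of schedules along an ultrafilter

`sd_limit`: the root list `bs` and the initial frame `f` are fixed; the shapes `θs k`, the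
translation parts `cs k` and the times vary with `k : ι`.  No subsequences: `U` is an ultrafilter.

Proof: induction on `bs`, generalising `f cs c ls as a`.
* `bs = []`: eventually `ls k = []`; take `l = []`.
* `bs = β :: bs'`: put `t k = ((ls k).headD (0, β)).1`, `l' k = (ls k).tail`; eventually
  `ls k = (t k, β) :: l' k`, `as k ≤ t k ≤ T`.  As `as k → a`, eventually `t k ∈ Icc (a - 1) T`, which is compact:
  `isCompact_Icc.ultrafilter_le_nhds` applied to `U.map t` gives `τ` with `Tendsto t U (𝓝 τ)`; `a ≤ τ ≤ T`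
  (`le_of_tendsto_of_tendsto`, `le_of_tendsto`).  By `hval` and `sd_frame_continuous`,
  `f ((θs k).val (t k)) → f (θ.val τ)`; hence the coefficient, the gap and the new translation part converge; the
  totals are equal (`hsum`).  Weak inequalities pass to the limit (`ge_of_tendsto`).  Apply the induction hypothesis
  with `fun x => refl β (f x)` (`sc_isFrame_refl`), `as := t`, `a := τ`; take `l = (τ, β) :: l'`.
-/

section SdLimit

open Filter Topology

theorem sd_frame_continuous (f : Vec n → Vec n) (hf : IsFrame f) : Continuous f := by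
  obtain ⟨w, rfl⟩ := hf
  unfold WD.act
  fun_prop

theorem sd_dot_continuous_right (a : Vec n) : Continuous (fun x : Vec n => dot a x) := by
  unfold dot
  fun_prop

theorem sd_dot_continuous_left (a : Vec n) : Continuous (fun x : Vec n => dot x a) := by
  unfold dot
  fun_prop

/-- D3, analytic core -/
theorem sd_limit {ι : Type} (U : Ultrafilter ι) (θs : ι → Shape n) (θ : Shape n)
    (hsum : ∀ k, (θs k).sum = θ.sum)
    (hval : ∀ (s : ι → ℝ) (t : ℝ), Tendsto s U (𝓝 t) →
      Tendsto (fun k => (θs k).val (s k)) U (𝓝 (θ.val t)))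
    (T : ℝ) (bs : List (RootD n)) (f : Vec n → Vec n) (hf : IsFrame f)
    (cs : ι → Vec n) (c : Vec n) (hc : Tendsto cs U (𝓝 c))
    (ls : ι → List (ℝ × RootD n)) (as : ι → ℝ) (a : ℝ) (ha : Tendsto as U (𝓝 a))
    (H : ∀ᶠ k in (U : Filter ι), (ls k).map Prod.snd = bs ∧ (∀ p ∈ ls k, as k ≤ p.1 ∧ p.1 ≤ T) ∧
      (ls k).Pairwise (fun p q => p.1 ≤ q.1) ∧ SwValid (θs k) ⟨f, cs k⟩ (ls k)) :
    ∃ l : List (ℝ × RootD n), l.map Prod.snd = bs ∧ (∀ p ∈ l, a ≤ p.1 ∧ p.1 ≤ T) ∧
      l.Pairwise (fun p q => p.1 ≤ q.1) ∧ SwValid θ ⟨f, c⟩ l ∧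
      Tendsto (fun k => (runSw (θs k) ⟨f, cs k⟩ (ls k)).c) U (𝓝 (runSw θ ⟨f, c⟩ l).c) ∧
      ∀ i, Tendsto (fun k => (swCoeffs (θs k) ⟨f, cs k⟩ (ls k)).getD i 0) U
        (𝓝 ((swCoeffs θ ⟨f, c⟩ l).getD i 0)) := by
  induction bs generalizing f cs c ls as a with
  | nil =>
    have hnil : ∀ᶠ k in (U : Filter ι), ls k = [] := by
      filter_upwards [H] with k hk
      simpa using hk.1
    refine ⟨[], rfl, by simp, List.Pairwise.nil, trivial, ?_, ?_⟩
    · refine hc.congr' ?_
      filter_upwards [hnil] with k hk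
      rw [hk]; rfl
    · intro i
      refine (tendsto_const_nhds (x := (0 : ℝ))).congr' ?_ |>.trans ?_
      · filter_upwards [hnil] with k hk
        rw [hk]; simp [swCoeffs]
      · simp [swCoeffs]
  | cons β bs ih =>
    set t : ι → ℝ := fun k => ((ls k).headD (0, β)).1 with ht
    set l' : ι → List (ℝ × RootD n) := fun k => (ls k).tail with hl'
    have H1 : ∀ᶠ k in (U : Filter ι), ls k = (t k, β) :: l' k := by
      filter_upwards [H] with k hk
      have h1 := hk.1
      cases hls : ls k with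
      | nil => rw [hls] at h1; simp at h1
      | cons p q =>
        rw [hls] at h1
        simp only [List.map_cons, List.cons.injEq] at h1
        simp only [ht, hl', hls, List.headD_cons, List.tail_cons, List.cons.injEq, and_true]
        exact Prod.ext rfl h1.1
    have H2 : ∀ᶠ k in (U : Filter ι), (l' k).map Prod.snd = bs ∧ as k ≤ t k ∧ t k ≤ T ∧
        (∀ p ∈ l' k, t k ≤ p.1 ∧ p.1 ≤ T) ∧ (l' k).Pairwise (fun p q => p.1 ≤ q.1) ∧
        0 ≤ (⟨f, cs k⟩ : SwState n).gap (θs k) (t k) β ∧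
        0 ≤ (⟨f, cs k⟩ : SwState n).total (θs k) β ∧
        SwValid (θs k) ((⟨f, cs k⟩ : SwState n).step (θs k) (t k) β) (l' k) := by
      filter_upwards [H, H1] with k hk hk1
      obtain ⟨h1, h2, h3, h4⟩ := hk
      rw [hk1] at h1 h2 h3 h4
      simp only [List.map_cons, List.cons.injEq, true_and] at h1
      rw [List.pairwise_cons] at h3
      have h5 := h2 (t k, β) (by simp)
      refine ⟨h1, h5.1, h5.2, fun p hp => ⟨h3.1 p hp, (h2 p (by simp [hp])).2⟩, h3.2,
        h4.1, h4.2.1, h4.2.2⟩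
    -- the first time converges
    obtain ⟨τ, hτ⟩ : ∃ τ, Tendsto t U (𝓝 τ) := by
      have hmem : ∀ᶠ k in (U : Filter ι), t k ∈ Set.Icc (a - 1) T := by
        have h1 : ∀ᶠ k in (U : Filter ι), a - 1 < as k :=
          ha.eventually (lt_mem_nhds (by linarith))
        filter_upwards [H2, h1] with k hk hk1
        exact ⟨by linarith [hk.2.1], hk.2.2.1⟩
      obtain ⟨τ, -, hτ⟩ := (isCompact_Icc (a := a - 1) (b := T)).ultrafilter_le_nhds (U.map t)
        (by rw [Filter.le_principal_iff]; exact hmem)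
      exact ⟨τ, hτ⟩
    have haτ : a ≤ τ := le_of_tendsto_of_tendsto ha hτ (H2.mono fun k hk => hk.2.1)
    have hτT : τ ≤ T := le_of_tendsto hτ (H2.mono fun k hk => hk.2.2.1)
    have hfv : Tendsto (fun k => f ((θs k).val (t k))) U (𝓝 (f (θ.val τ))) :=
      ((sd_frame_continuous f hf).tendsto _).comp (hval t τ hτ)
    have hm : Tendsto (fun k => (⟨f, cs k⟩ : SwState n).coeff (θs k) (t k) β) U
        (𝓝 ((⟨f, c⟩ : SwState n).coeff θ τ β)) := by
      simp only [SwState.coeff]
      exact (((sd_dot_continuous_right β.vec).tendsto _).comp hfv).neg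
    have hg : Tendsto (fun k => (⟨f, cs k⟩ : SwState n).gap (θs k) (t k) β) U
        (𝓝 ((⟨f, c⟩ : SwState n).gap θ τ β)) := by
      simp only [SwState.gap, SwState.pos]
      exact ((sd_dot_continuous_left β.vec).tendsto _).comp (hc.add hfv)
    have hc' : Tendsto (fun k => cs k - (⟨f, cs k⟩ : SwState n).coeff (θs k) (t k) β • β.vec) U
        (𝓝 (c - (⟨f, c⟩ : SwState n).coeff θ τ β • β.vec)) :=
      hc.sub (hm.smul_const _)
    obtain ⟨l, e1, e2, e3, e4, e5, e6⟩ := ih (fun x => refl β (f x)) (sc_isFrame_refl f hf β)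
      (fun k => cs k - (⟨f, cs k⟩ : SwState n).coeff (θs k) (t k) β • β.vec)
      (c - (⟨f, c⟩ : SwState n).coeff θ τ β • β.vec) hc' l' t τ hτ
      (H2.mono fun k hk => ⟨hk.1, hk.2.2.2.1, hk.2.2.2.2.1, hk.2.2.2.2.2.2.2⟩)
    refine ⟨(τ, β) :: l, by simp [e1], ?_, ?_, ?_, ?_, ?_⟩
    · intro p hp
      rcases List.mem_cons.1 hp with rfl | hp
      · exact ⟨haτ, hτT⟩
      · exact ⟨haτ.trans (e2 p hp).1, (e2 p hp).2⟩
    · exact List.pairwise_cons.2 ⟨fun p hp => (e2 p hp).1, e3⟩
    · refine ⟨ge_of_tendsto hg (H2.mono fun k hk => hk.2.2.2.2.2.1), ?_, e4⟩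
      obtain ⟨k, hk⟩ := H2.exists
      have := hk.2.2.2.2.2.2.1
      simpa only [SwState.total, hsum] using this
    · refine e5.congr' ?_
      filter_upwards [H1] with k hk
      rw [hk]; rfl
    · intro i
      cases i with
      | zero =>
        refine hm.congr' ?_ |>.trans ?_
        · filter_upwards [H1] with k hk
          rw [hk]; simp [swCoeffs]
        · simp [swCoeffs]
      | succ i =>
        refine (e6 i).congr' ?_ |>.trans ?_
        · filter_upwards [H1] with k hk
          rw [hk]; simp [swCoeffs, SwState.step]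
        · simp [swCoeffs, SwState.step]

end SdLimit

/-!
# Row 282, BP-S34-D, leaf L-S34D-4: closedness of the existence of integral schedules

`sd_sched_limit` is the common part of `sd_closed` and `sd_aug_closed`.
Proof: choose `w k` with `(runSw …).pos … = (w k).act xi`.  The map
`k ↦ (w0s k, (ls k).map Prod.snd, w k)` takes its values in a finite set (`sc_finite_WD`, `sc_finite_RootD`,
`List.finite_length_le`), so it is constant on a member of `U` (`sd_ultra_const`).  Apply `sd_limit` with `f = w0.act`,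
`cs = fun _ => lam`, `as = fun _ => 0`, `T = θ.length`.  Endpoint: `pos θ T = c_end + frame θ.sum`
(`sc_val_length`), the frame of `runSw` only depends on the roots (`sc_runSw_frame`), the `c_end` converge, and
the sequence `c_end k + frame θ.sum = w.act xi` is eventually constant (`tendsto_nhds_unique`).

`sd_closed`: `U = hyperfilter ℕ` (`Nat.hyperfilter_le_atTop`), `sd_hval`, `sd_sched_limit`, `sd_int_limit`,
`sd_integral_iff`.
-/

section SdClosed

open Filter Topology

/-- a map into a finite set is constant along an ultrafilter -/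
theorem sd_ultra_const {ι α : Type} (U : Ultrafilter ι) (g : ι → α) (s : Set α) (hs : s.Finite)
    (h : ∀ᶠ k in (U : Filter ι), g k ∈ s) : ∃ a ∈ s, ∀ᶠ k in (U : Filter ι), g k = a := by
  have h' : (⋃ a ∈ s, g ⁻¹' {a}) ∈ U := by
    refine Filter.mem_of_superset h ?_
    intro k hk
    simp only [Set.mem_iUnion, Set.mem_preimage, Set.mem_singleton_iff, exists_prop]
    exact ⟨g k, hk, rfl⟩
  obtain ⟨a, ha, hmem⟩ := (Ultrafilter.finite_biUnion_mem_iff hs).1 h'
  exact ⟨a, ha, hmem⟩

/-- a limit of integers is an integer -/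
theorem sd_int_limit {ι : Type} (U : Ultrafilter ι) (x : ι → ℝ) (y : ℝ)
    (hx : Tendsto x U (𝓝 y)) (h : ∀ᶠ k in (U : Filter ι), ∃ z : ℤ, x k = z) : ∃ z : ℤ, y = z := by
  have hcl : IsClosed (Set.range ((↑) : ℤ → ℝ)) := Int.isClosedEmbedding_coe_real.isClosed_range
  obtain ⟨z, hz⟩ := hcl.mem_of_tendsto hx (h.mono fun k ⟨z, hz⟩ => ⟨z, hz.symm⟩)
  exact ⟨z, hz.symm⟩

/-- entrywise convergence of shapes of a fixed length gives continuous convergence of the values -/
theorem sd_hval (θ : Shape n) (θs : ℕ → Shape n) (hlen : ∀ k, (θs k).length = θ.length)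
    (hclose : ∀ k i, dist (θ.getD i 0) ((θs k).getD i 0) ≤ 1 / ((k : ℝ) + 1))
    (U : Ultrafilter ℕ) (hU : (U : Filter ℕ) ≤ atTop) (s : ℕ → ℝ) (t : ℝ)
    (hs : Tendsto s U (𝓝 t)) : Tendsto (fun k => (θs k).val (s k)) U (𝓝 (θ.val t)) := by
  rw [tendsto_iff_dist_tendsto_zero]
  have h1 : Tendsto (fun k => dist (θ.val (s k)) (θ.val t)) U (𝓝 0) :=
    tendsto_iff_dist_tendsto_zero.1 (((sc_val_continuous θ).tendsto t).comp hs)
  have h2 : Tendsto (fun k : ℕ => (θ.length : ℝ) * (1 / ((k : ℝ) + 1))) U (𝓝 0) := by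
    have : Tendsto (fun k : ℕ => (θ.length : ℝ) * (1 / ((k : ℝ) + 1))) atTop
        (𝓝 ((θ.length : ℝ) * 0)) := tendsto_one_div_add_atTop_nhds_zero_nat.const_mul _
    simpa using this.mono_left hU
  have h3 : Tendsto (fun k : ℕ => (θ.length : ℝ) * (1 / ((k : ℝ) + 1))
      + dist (θ.val (s k)) (θ.val t)) U (𝓝 0) := by
    have := h2.add h1
    rwa [add_zero] at this
  refine squeeze_zero (fun _ => dist_nonneg) (fun k => ?_) h3
  calc dist ((θs k).val (s k)) (θ.val t)
      ≤ dist ((θs k).val (s k)) (θ.val (s k)) + dist (θ.val (s k)) (θ.val t) :=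
        dist_triangle _ _ _
    _ ≤ (θ.length : ℝ) * (1 / ((k : ℝ) + 1)) + dist (θ.val (s k)) (θ.val t) := by
        gcongr
        rw [dist_comm]
        exact sc_val_dist_le θ (θs k) (hlen k).symm _ (hclose k) _

/-- limit of schedules with a bounded number of switches -/
theorem sd_sched_limit {ι : Type} (U : Ultrafilter ι) (lam xi : Vec n) (θs : ι → Shape n)
    (θ : Shape n) (hsum : ∀ k, (θs k).sum = θ.sum) (hlen : ∀ k, (θs k).length = θ.length)
    (hval : ∀ (s : ι → ℝ) (t : ℝ), Tendsto s U (𝓝 t) →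
      Tendsto (fun k => (θs k).val (s k)) U (𝓝 (θ.val t)))
    (N : ℕ) (w0s : ι → WD n) (ls : ι → List (ℝ × RootD n))
    (H : ∀ᶠ k in (U : Filter ι), IsSchedule lam (θs k) xi (w0s k) (ls k) ∧ (ls k).length ≤ N) :
    ∃ (w0 : WD n) (l : List (ℝ × RootD n)), IsSchedule lam θ xi w0 l ∧
      (∀ᶠ k in (U : Filter ι), w0s k = w0 ∧ (ls k).map Prod.snd = l.map Prod.snd) ∧
      ∀ i, Tendsto (fun k => (swCoeffs (θs k) ⟨(w0s k).act, lam⟩ (ls k)).getD i 0) U
        (𝓝 ((swCoeffs θ ⟨w0.act, lam⟩ l).getD i 0)) := by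
  classical
  have hw : ∀ k, ∃ w : WD n, IsSchedule lam (θs k) xi (w0s k) (ls k) →
      (runSw (θs k) ⟨(w0s k).act, lam⟩ (ls k)).pos (θs k) (θs k).length = w.act xi := by
    intro k
    by_cases h : IsSchedule lam (θs k) xi (w0s k) (ls k)
    · obtain ⟨w, hw⟩ := h.endpoint
      exact ⟨w, fun _ => hw⟩
    · exact ⟨w0s k, fun h' => absurd h' h⟩
  choose ws hws using hw
  have := sc_finite_WD (n := n)
  have := sc_finite_RootD (n := n)
  have hfin : ((Set.univ : Set (WD n)) ×ˢ
      ({l : List (RootD n) | l.length ≤ N} ×ˢ (Set.univ : Set (WD n)))).Finite :=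
    Set.finite_univ.prod ((List.finite_length_le (RootD n) N).prod Set.finite_univ)
  obtain ⟨⟨w0, bs, w⟩, -, hconst⟩ := sd_ultra_const U
    (fun k => (w0s k, (ls k).map Prod.snd, ws k)) _ hfin
    (H.mono fun k hk => by simpa using hk.2)
  have hconst' : ∀ᶠ k in (U : Filter ι), w0s k = w0 ∧ (ls k).map Prod.snd = bs ∧ ws k = w :=
    hconst.mono fun k hk => by simpa using hk
  obtain ⟨l, e1, e2, e3, e4, e5, e6⟩ := sd_limit U θs θ hsum hval θ.length bs w0.act
    (sc_isFrame_act w0) (fun _ => lam) lam tendsto_const_nhds ls (fun _ => 0) 0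
    tendsto_const_nhds (by
      filter_upwards [H, hconst'] with k hk hc
      refine ⟨hc.2.1, fun p hp => ?_, hk.1.sorted, hc.1 ▸ hk.1.valid⟩
      have := hk.1.times_mem p hp
      rwa [hlen k] at this)
  refine ⟨w0, l, ⟨e2, e3, e4, w, ?_⟩, ?_, ?_⟩
  · have hev : ∀ᶠ k in (U : Filter ι), (runSw (θs k) ⟨w0.act, lam⟩ (ls k)).c
        = w.act xi - reflList bs (w0.act θ.sum) := by
      filter_upwards [H, hconst'] with k hk hc
      have h1 := hws k hk.1
      rw [hc.1, hc.2.2] at h1
      simp only [SwState.pos] at h1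
      rw [sc_val_length, sc_runSw_frame, hc.2.1, hsum k] at h1
      rw [← h1]
      abel
    have hlim : Tendsto (fun k => (runSw (θs k) ⟨w0.act, lam⟩ (ls k)).c) U
        (𝓝 (w.act xi - reflList bs (w0.act θ.sum))) :=
      tendsto_const_nhds.congr' (hev.mono fun k hk => hk.symm)
    have huniq := tendsto_nhds_unique e5 hlim
    simp only [SwState.pos]
    rw [sc_val_length, sc_runSw_frame, e1, huniq]
    abel
  · exact hconst'.mono fun k hk => ⟨hk.1, hk.2.1.trans e1.symm⟩
  · intro i
    refine (e6 i).congr' ?_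
    filter_upwards [hconst'] with k hk
    rw [hk.1]

/-- D3 -/
theorem sd_closed (lam xi : Vec n) (θ : Shape n) (θs : ℕ → Shape n) (N : ℕ)
    (hsum : ∀ k, (θs k).sum = θ.sum) (hlen : ∀ k, (θs k).length = θ.length)
    (hclose : ∀ k i, dist (θ.getD i 0) ((θs k).getD i 0) ≤ 1 / ((k : ℝ) + 1))
    (H : ∀ k, ∃ w0 l, IsSchedule lam (θs k) xi w0 l ∧ SwIntegral (θs k) ⟨w0.act, lam⟩ l ∧
      l.length ≤ N) :
    HasIntSchedule lam θ xi := by
  choose w0s ls h1 h2 h3 using H
  obtain ⟨w0, l, hs, -, hco⟩ := sd_sched_limit (Filter.hyperfilter ℕ) lam xi θs θ hsum hlen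
    (sd_hval θ θs hlen hclose _ Nat.hyperfilter_le_atTop) N w0s ls
    (Filter.Eventually.of_forall fun k => ⟨h1 k, h3 k⟩)
  exact ⟨w0, l, hs, (sd_integral_iff _ _ _).2 fun i => sd_int_limit _ _ _ (hco i)
    (Filter.Eventually.of_forall fun k => (sd_integral_iff _ _ _).1 (h2 k) i)⟩

end SdClosed

/-!
# Row 282, BP-S34-D, leaf L-S34D-5: uniqueness of the primitive relation

Proof.  Put `N = l.length = n + 1`, `v i = (l.get i).2.vec`, `Φ = Fintype.linearCombination ℝ v :
(Fin N → ℝ) →ₗ[ℝ] Vec n`; for a list `c` of length `N`, `relSum c l = Φ (fun i => c.get …)`.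
`Φ` is onto: `2 • Pi.single i 1` satisfies `InQD`, so it is in the range by `SwGenQ`.  Rank-nullity
(`LinearMap.finrank_range_add_finrank_ker`): `finrank (ker Φ) = 1`.  `r ≠ 0` (otherwise `2` divides all entries).  So
`r' = q • r` for a real `q` (`finrank_eq_one_iff_of_nonzero'`).  Choose `i` with `g = r_i ≠ 0`, `g' = r'_i`: then
`g * r'_j = g' * r_j` for all `j` (integers).  With `d = gcd g g'`: `g / d` divides all `r_j` (coprime to `g' / d`), so
it is a unit; `g' / d` divides all `r'_j`, so it is a unit (`g' ≠ 0` because `r' ≠ 0`).  Hence `g' = ± g`, `q = ± 1`.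
-/

section SdPrimRel

/-- NOTE: in `SwGenQ` and `IsPrimRel` (S34/Defs) the term `c.map (fun z => (z : ℝ))` was elaborated with a
monadic coercion of the list; this lemma normalises it. -/
theorem sd_cast_list (c : List ℤ) :
    (List.map (fun z : ℝ => z) (do let a ← c; pure (a : ℝ))) = c.map (fun z : ℤ => (z : ℝ)) := by
  induction c with
  | nil => rfl
  | cons a c ih => simpa using ih

theorem sd_genQ_def (l : List (ℝ × RootD n)) (h : SwGenQ l) (x : Vec n) (hx : InQD x) :
    ∃ c : List ℤ, c.length = l.length ∧ relSum (List.map (fun z : ℤ => (z : ℝ)) c) l = x := by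
  obtain ⟨c, h1, h2⟩ := h x hx
  exact ⟨c, h1, by rw [← sd_cast_list]; exact h2⟩

theorem sd_primRel_def (r : List ℤ) (l : List (ℝ × RootD n)) (h : IsPrimRel r l) :
    relSum (List.map (fun z : ℤ => (z : ℝ)) r) l = 0 := by
  rw [← sd_cast_list]
  exact h.2.1

theorem sd_relSum_eq_sum (c : List ℝ) (l : List (ℝ × RootD n)) :
    relSum c l = ∑ i ∈ Finset.range l.length,
      c.getD i 0 • (l.map (fun p => p.2.vec)).getD i 0 := by
  induction l generalizing c with
  | nil => simp [relSum]
  | cons p l ih =>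
    cases c with
    | nil => simp [relSum]
    | cons a c =>
      have := ih c
      simp only [relSum, List.zipWith_cons_cons, List.sum_cons] at this ⊢
      rw [this, List.length_cons, Finset.sum_range_succ']
      simp [add_comm]

theorem sd_getD_cast (r : List ℤ) (i : ℕ) :
    (r.map (fun z : ℤ => (z : ℝ))).getD i 0 = ((r.getD i 0 : ℤ) : ℝ) := by
  have := List.getD_map (f := fun z : ℤ => (z : ℝ)) (l := r) (n := i) (d := 0)
  simpa using this

theorem sd_dvd_of_getD (r : List ℤ) (d : ℤ) (h : ∀ i, i < r.length → d ∣ r.getD i 0) :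
    ∀ a ∈ r, d ∣ a := by
  intro a ha
  obtain ⟨i, hi, rfl⟩ := List.mem_iff_getElem.1 ha
  have := h i hi
  rwa [List.getD_eq_getElem _ _ hi] at this

theorem sd_primRel_unique (l : List (ℝ × RootD n)) (hl : l.length = n + 1) (hg : SwGenQ l)
    (r r' : List ℤ) (hr : IsPrimRel r l) (hr' : IsPrimRel r' l) :
    r' = r ∨ r' = r.map (fun a => -a) := by
  classical
  set v : ℕ → Vec n := fun i => (l.map (fun p => p.2.vec)).getD i 0 with hv
  set Φ : (Fin (n + 1) → ℝ) →ₗ[ℝ] Vec n :=
    Fintype.linearCombination ℝ (fun i : Fin (n + 1) => v i) with hΦ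
  have hΦrel : ∀ c : List ℝ, Φ (fun i => c.getD i 0) = relSum c l := by
    intro c
    rw [sd_relSum_eq_sum, hl, hΦ, Fintype.linearCombination_apply,
      Fin.sum_univ_eq_sum_range (fun i => c.getD i 0 • v i)]
  have hsurj : LinearMap.range Φ = ⊤ := by
    rw [eq_top_iff]
    intro x _
    have hsingle : ∀ i : Fin n, (Pi.single i 1 : Vec n) ∈ LinearMap.range Φ := by
      intro i
      have hQ : InQD ((2 : ℝ) • (Pi.single i 1 : Vec n)) := by
        refine ⟨fun j => ?_, ⟨1, ?_⟩⟩
        · by_cases h : j = i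
          · subst h
            exact ⟨2, by simp⟩
          · exact ⟨0, by simp [h]⟩
        · simp [Pi.single_apply]
      obtain ⟨c, -, hc⟩ := sd_genQ_def l hg _ hQ
      refine ⟨(1 / 2 : ℝ) • (fun j : Fin (n + 1) => (c.map (fun z : ℤ => (z : ℝ))).getD j 0), ?_⟩
      rw [map_smul, hΦrel, hc, smul_smul]
      norm_num
    have hx : x = ∑ i, x i • (Pi.single i 1 : Vec n) := by
      ext j
      simp [Finset.sum_apply, Pi.single_apply]
    rw [hx]
    exact Submodule.sum_mem _ fun i _ => Submodule.smul_mem _ _ (hsingle i)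
  have hker : Module.finrank ℝ (LinearMap.ker Φ) = 1 := by
    have := LinearMap.finrank_range_add_finrank_ker Φ
    rw [hsurj, finrank_top] at this
    simp only [Module.finrank_fintype_fun_eq_card, Fintype.card_fin] at this
    omega
  -- the two relations as elements of the kernel
  have hmem : ∀ s : List ℤ, IsPrimRel s l →
      (fun i : Fin (n + 1) => ((s.getD i 0 : ℤ) : ℝ)) ∈ LinearMap.ker Φ := by
    intro s hs
    rw [LinearMap.mem_ker]
    have := hΦrel (s.map (fun z : ℤ => (z : ℝ)))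
    simp only [sd_getD_cast] at this
    rw [this, sd_primRel_def s l hs]
  have hnz : ∀ s : List ℤ, IsPrimRel s l → ∃ i : Fin (n + 1), s.getD i 0 ≠ 0 := by
    intro s hs
    by_contra hcon
    push Not at hcon
    have h2 : IsUnit (2 : ℤ) := hs.2.2 2 (sd_dvd_of_getD s 2 fun i hi => by
      have := hcon ⟨i, by rw [← hl, ← hs.1]; exact hi⟩
      simp only at this
      rw [this]
      exact dvd_zero _)
    rw [Int.isUnit_iff] at h2
    omega
  obtain ⟨i0, hi0⟩ := hnz r hr
  have hRne : (⟨_, hmem r hr⟩ : LinearMap.ker Φ) ≠ 0 := by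
    intro h
    have := congrFun (congrArg Subtype.val h) i0
    simp only [ZeroMemClass.coe_zero, Pi.zero_apply, Int.cast_eq_zero] at this
    exact hi0 this
  obtain ⟨q, hq⟩ := (finrank_eq_one_iff_of_nonzero' _ hRne).1 hker ⟨_, hmem r' hr'⟩
  have hq' : ∀ j : Fin (n + 1), q * ((r.getD j 0 : ℤ) : ℝ) = ((r'.getD j 0 : ℤ) : ℝ) := by
    intro j
    have := congrFun (congrArg Subtype.val hq) j
    simpa using this
  have hcross : ∀ j : Fin (n + 1), r'.getD j 0 * r.getD i0 0 = r'.getD i0 0 * r.getD j 0 := by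
    intro j
    have h1 := hq' j
    have h2 := hq' i0
    have : ((r'.getD j 0 : ℤ) : ℝ) * ((r.getD i0 0 : ℤ) : ℝ)
        = ((r'.getD i0 0 : ℤ) : ℝ) * ((r.getD j 0 : ℤ) : ℝ) := by
      rw [← h1, ← h2]
      ring
    exact_mod_cast this
  obtain ⟨a, b, hab, hga, hgb⟩ := Int.exists_gcd_one (m := r.getD i0 0) (n := r'.getD i0 0)
    (Int.gcd_pos_of_ne_zero_left _ hi0)
  set d : ℤ := ((r.getD i0 0).gcd (r'.getD i0 0) : ℤ) with hd
  have hd0 : d ≠ 0 := by
    intro h
    rw [h, mul_zero] at hga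
    exact hi0 hga
  have hcross' : ∀ j : Fin (n + 1), r'.getD j 0 * a = b * r.getD j 0 := by
    intro j
    have := hcross j
    rw [hga, hgb] at this
    have h3 : (r'.getD j 0 * a) * d = (b * r.getD j 0) * d := by linarith
    exact mul_right_cancel₀ hd0 h3
  have hcop : IsCoprime a b := Int.isCoprime_iff_gcd_eq_one.2 hab
  have ha : IsUnit a := hr.2.2 a (sd_dvd_of_getD r a fun i hi => by
    have := hcross' ⟨i, by rw [← hl, ← hr.1]; exact hi⟩
    simp only at this
    exact hcop.dvd_of_dvd_mul_left ⟨r'.getD i 0, by rw [← this]; ring⟩)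
  have hb : IsUnit b := hr'.2.2 b (sd_dvd_of_getD r' b fun i hi => by
    have := hcross' ⟨i, by rw [← hl, ← hr'.1]; exact hi⟩
    simp only at this
    exact hcop.symm.dvd_of_dvd_mul_left ⟨r.getD i 0, by rw [← this]; ring⟩)
  have hlen : r'.length = r.length := hr'.1.trans hr.1.symm
  have hfin : ∀ ε : ℤ, (∀ j : Fin (n + 1), r'.getD j 0 = ε * r.getD j 0) →
      ∀ i (h1 : i < r'.length) (h2 : i < r.length), r'[i] = ε * r[i] := by
    intro ε h i h1 h2
    have := h ⟨i, by rw [← hl, ← hr.1]; exact h2⟩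
    simp only at this
    rwa [List.getD_eq_getElem _ _ h1, List.getD_eq_getElem _ _ h2] at this
  rw [Int.isUnit_iff] at ha hb
  have hcases : (∀ j : Fin (n + 1), r'.getD j 0 = 1 * r.getD j 0) ∨
      (∀ j : Fin (n + 1), r'.getD j 0 = (-1) * r.getD j 0) := by
    rcases ha with rfl | rfl <;> rcases hb with rfl | rfl
    · exact Or.inl fun j => by have := hcross' j; linarith
    · exact Or.inr fun j => by have := hcross' j; linarith
    · exact Or.inr fun j => by have := hcross' j; linarith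
    · exact Or.inl fun j => by have := hcross' j; linarith
  rcases hcases with h | h
  · left
    refine List.ext_getElem hlen fun i h1 h2 => ?_
    rw [hfin 1 h i h1 h2, one_mul]
  · right
    refine List.ext_getElem (by simpa using hlen) fun i h1 h2 => ?_
    have h2' : i < r.length := by simpa using h2
    rw [hfin (-1) h i h1 h2', List.getElem_map]
    ring

/-- `SwGenQ` and `IsPrimRel` only depend on the roots -/
theorem sd_genQ_congr (l l' : List (ℝ × RootD n)) (h : l.map Prod.snd = l'.map Prod.snd)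
    (hg : SwGenQ l) : SwGenQ l' := by
  have hlen : l.length = l'.length := by
    have := congrArg List.length h
    simpa using this
  intro x hx
  obtain ⟨c, hc, hcx⟩ := hg x hx
  exact ⟨c, hc.trans hlen, by rw [← hcx]; exact sc_relSum_congr _ _ _ h.symm⟩

theorem sd_primRel_congr (l l' : List (ℝ × RootD n)) (h : l.map Prod.snd = l'.map Prod.snd)
    (r : List ℤ) (hr : IsPrimRel r l) : IsPrimRel r l' := by
  have hlen : l.length = l'.length := by
    have := congrArg List.length h
    simpa using this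
  exact ⟨hr.1.trans hlen, by rw [← hr.2.1]; exact sc_relSum_congr _ _ _ h.symm, hr.2.2⟩

end SdPrimRel

/-!
# Row 282, BP-S34-D, leaf L-S34D-6: the set of augmented parameters is closed

Proof.  `isClosed_iff_ultrafilter`: let `U` be an ultrafilter on `ℝ`, `U ≤ 𝓝 x`, `{y | AugAt lam θ xi y} ∈ U`.
Choose (classically, with junk values outside the set) `w0s y`, `ls y`, `rs y`.  `sd_sched_limit` with `ι = ℝ`,
`θs = fun _ => θ` (`hval` is the continuity `sc_val_continuous`), `N = n + 1` gives `(w0, l)`.  As `U` is proper there is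
one `y₀` in the good set; `r₀ = rs y₀` is a primitive relation of `l` (`sd_primRel_congr`), `SwGenQ l`
(`sd_genQ_congr`), `l.length = n + 1` (`List.length_map`).  For all good `y`: `rs y ∈ {r₀, -r₀}` (`sd_primRel_unique`);
`sd_ultra_const` gives a constant `r`.  For every index `i`: `m_i(y) + y * r_i` is an integer and converges to
`m_i + x * r_i` (`sd_int_limit`).  Translate `List.Forall₂` into indices (`List.forall₂_iff_get`).
-/

section SdAug

open Filter Topology

/-- contract E1 -/
theorem sd_aug_closed (lam xi : Vec n) (θ : Shape n) : IsClosed {x : ℝ | AugAt lam θ xi x} := by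
  classical
  rw [isClosed_iff_ultrafilter]
  intro x U hU hmem
  have hch : ∀ y : ℝ, ∃ (w0 : WD n) (l : List (ℝ × RootD n)) (r : List ℤ), AugAt lam θ xi y →
      (IsSchedule lam θ xi w0 l ∧ l.length = n + 1 ∧ SwGenQ l ∧ IsPrimRel r l ∧
        List.Forall₂ (fun (m : ℝ) (a : ℤ) => ∃ z : ℤ, m + y * a = z)
          (swCoeffs θ ⟨w0.act, lam⟩ l) r) := by
    intro y
    by_cases h : AugAt lam θ xi y
    · obtain ⟨w0, l, r, h'⟩ := h
      exact ⟨w0, l, r, fun _ => h'⟩
    · obtain ⟨w, -⟩ := sc_WD_one (n := n)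
      exact ⟨w, [], [], fun h' => absurd h' h⟩
  choose w0s ls rs hdata using hch
  have hev : ∀ᶠ y in (U : Filter ℝ), AugAt lam θ xi y := hmem
  obtain ⟨w0, l, hs, hconst, hco⟩ := sd_sched_limit U lam xi (fun _ => θ) θ (fun _ => rfl)
    (fun _ => rfl) (fun s t hs => ((sc_val_continuous θ).tendsto t).comp hs) (n + 1) w0s ls
    (hev.mono fun y hy => ⟨(hdata y hy).1, (hdata y hy).2.1.le⟩)
  obtain ⟨y0, hy0, hc0⟩ := (hev.and hconst).exists
  have hroots0 : (ls y0).map Prod.snd = l.map Prod.snd := hc0.2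
  have hlen : l.length = n + 1 := by
    have := congrArg List.length hroots0
    simp only [List.length_map] at this
    rw [← this]
    exact (hdata y0 hy0).2.1
  have hgen : SwGenQ l := sd_genQ_congr _ _ hroots0 (hdata y0 hy0).2.2.1
  have hr0 : IsPrimRel (rs y0) l := sd_primRel_congr _ _ hroots0 _ (hdata y0 hy0).2.2.2.1
  obtain ⟨r, -, hrconst⟩ := sd_ultra_const U rs {rs y0, (rs y0).map (fun a => -a)}
    (by simp) (by
      filter_upwards [hev, hconst] with y hy hc
      have := sd_primRel_unique l hlen hgen (rs y0) (rs y) hr0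
        (sd_primRel_congr _ _ hc.2 _ (hdata y hy).2.2.2.1)
      simpa using this)
  have hr : IsPrimRel r l := by
    obtain ⟨y, hy, hc, hry⟩ := (hev.and (hconst.and hrconst)).exists
    rw [← hry]
    exact sd_primRel_congr _ _ hc.2 _ (hdata y hy).2.2.2.1
  refine ⟨w0, l, r, hs, hlen, hgen, hr, ?_⟩
  rw [List.forall₂_iff_get]
  refine ⟨by rw [sc_coeffs_length, hr.1], fun i h1 h2 => ?_⟩
  have hlim : Tendsto (fun y => (swCoeffs θ ⟨(w0s y).act, lam⟩ (ls y)).getD i 0
      + y * ((r.get ⟨i, h2⟩ : ℤ) : ℝ)) U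
      (𝓝 ((swCoeffs θ ⟨w0.act, lam⟩ l).getD i 0 + x * ((r.get ⟨i, h2⟩ : ℤ) : ℝ))) :=
    (hco i).add ((tendsto_id'.2 hU).mul_const _)
  obtain ⟨z, hz⟩ := sd_int_limit U _ _ hlim (by
    filter_upwards [hev, hrconst] with y hy hry
    have hF := (hdata y hy).2.2.2.2
    rw [hry, List.forall₂_iff_get] at hF
    obtain ⟨hl1, hF⟩ := hF
    have h1' : i < (swCoeffs θ ⟨(w0s y).act, lam⟩ (ls y)).length := by rw [hl1]; exact h2
    have := hF i h1' h2
    rw [List.getD_eq_getElem _ _ h1']
    exact this)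
  refine ⟨z, ?_⟩
  rw [← hz, List.getD_eq_getElem _ _ h1]
  rfl

end SdAug

/-!
# Row 282, BP-S34-D, leaf L-S34D-7: avoiding countably many hyperplanes inside the face

Proof.  `F = {x | InFace mu x}` is a submodule of `Vec n = Fin n → ℝ` (`sc_dot_add_right`, `sc_dot_smul_right`).  Take a
linear projection `π : Vec n →ₗ[ℝ] Vec n` onto `F` (`LinearMap.exists_leftInverse_of_injective` for `F.subtype`), continuous by
`LinearMap.continuous_of_finiteDimensional`.  `V = {z | dist (π z) x0 < ρ}` is a nonempty set which is a neighbourhood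
of `x0`, so `0 < volume V` (`IsOpen.measure_pos`).  For each `k` the set `H k = {z | dot (a k) (π z) = c k}` is empty or a
translate of the kernel of the nonzero functional `z ↦ dot (a k) (π z)`, so `volume (H k) = 0`
(`MeasureTheory.Measure.addHaar_affineSubspace` or `addHaar_submodule` + translation invariance).  `measure_iUnion_null`.
Hence `V` is not contained in the union of the `H k`; take `x = π z`.
-/

section SdAvoid

theorem sd_avoid_dot_add (x y z : Vec n) : dot x (y + z) = dot x y + dot x z := by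
  simp [dot, mul_add, Finset.sum_add_distrib]

theorem sd_avoid_dot_smul (r : ℝ) (x y : Vec n) : dot x (r • y) = r * dot x y := by
  simp only [dot, Pi.smul_apply, smul_eq_mul, Finset.mul_sum]
  exact Finset.sum_congr rfl fun i _ => by ring

/-- the face as a submodule -/
def sdFaceSub (mu : Vec n) : Submodule ℝ (Vec n) where
  carrier := {x | InFace mu x}
  add_mem' := by
    intro x y hx hy β hβ
    rw [sd_avoid_dot_add, hx β hβ, hy β hβ, add_zero]
  zero_mem' := by
    intro β _
    simp [dot]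
  smul_mem' := by
    intro r x hx β hβ
    rw [sd_avoid_dot_smul, hx β hβ, mul_zero]

/-- generates the equation lemma of `sdFaceSub` in this file (rule 6) -/
theorem sd_avoid_eqns_cite : True := by
  have := @sdFaceSub.eq_1
  trivial

theorem sd_avoid (mu x0 : Vec n) (hx0 : InFace mu x0) (ρ : ℝ) (hρ : 0 < ρ)
    {κ : Type} [Countable κ] (a : κ → Vec n) (c : κ → ℝ)
    (ha : ∀ k, ∃ x, InFace mu x ∧ dot (a k) x ≠ 0) :
    ∃ x, InFace mu x ∧ dist x x0 < ρ ∧ ∀ k, dot (a k) x ≠ c k := by
  obtain ⟨g, hg⟩ := LinearMap.exists_leftInverse_of_injective (sdFaceSub mu).subtype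
    (Submodule.ker_subtype _)
  have hgx : ∀ x, InFace mu x → ((g x : sdFaceSub mu) : Vec n) = x := by
    intro x hx
    have := congrArg (fun f : sdFaceSub mu →ₗ[ℝ] sdFaceSub mu => ((f ⟨x, hx⟩ : sdFaceSub mu) : Vec n)) hg
    simpa using this
  let P : Vec n →ₗ[ℝ] Vec n := (sdFaceSub mu).subtype ∘ₗ g
  have hPc : Continuous P := LinearMap.continuous_of_finiteDimensional P
  have hPx : ∀ x, InFace mu x → P x = x := hgx
  have hPmem : ∀ z, InFace mu (P z) := fun z => (g z).2
  -- the neighbourhood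
  have hVo : IsOpen {z : Vec n | dist (P z) x0 < ρ} :=
    isOpen_lt (hPc.dist continuous_const) continuous_const
  have hVne : ({z : Vec n | dist (P z) x0 < ρ}).Nonempty := ⟨x0, by
    show dist (P x0) x0 < ρ
    rw [hPx x0 hx0, dist_self]; exact hρ⟩
  have hVpos : 0 < MeasureTheory.volume {z : Vec n | dist (P z) x0 < ρ} := hVo.measure_pos _ hVne
  -- the hyperplanes
  have hH : ∀ k, MeasureTheory.volume {z : Vec n | dot (a k) (P z) = c k} = 0 := by
    intro k
    let φ : Vec n →ₗ[ℝ] ℝ :=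
      { toFun := fun z => dot (a k) (P z)
        map_add' := fun x y => by rw [map_add, sd_avoid_dot_add]
        map_smul' := fun r x => by rw [map_smul, sd_avoid_dot_smul]; rfl }
    have hφ : LinearMap.ker φ ≠ ⊤ := by
      intro htop
      obtain ⟨x, hx, hne⟩ := ha k
      have : x ∈ LinearMap.ker φ := by rw [htop]; trivial
      apply hne
      have h2 : dot (a k) (P x) = 0 := this
      rwa [hPx x hx] at h2
    by_cases hemp : ∃ z0, dot (a k) (P z0) = c k
    · obtain ⟨z0, hz0⟩ := hemp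
      have hset : {z : Vec n | dot (a k) (P z) = c k}
          = (fun z => z + -z0) ⁻¹' (LinearMap.ker φ : Set (Vec n)) := by
        ext z
        simp only [Set.mem_ofPred_eq, Set.mem_preimage, SetLike.mem_coe, LinearMap.mem_ker]
        have : φ (z + -z0) = dot (a k) (P z) - dot (a k) (P z0) := by
          rw [map_add, map_neg]; rfl
        rw [this, hz0, sub_eq_zero]
      rw [hset, MeasureTheory.measure_preimage_add_right]
      exact MeasureTheory.Measure.addHaar_submodule _ _ hφ
    · have : {z : Vec n | dot (a k) (P z) = c k} = ∅ := by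
        ext z
        simp only [Set.mem_ofPred_eq, Set.mem_empty_iff_false, iff_false]
        exact fun h => hemp ⟨z, h⟩
      rw [this, MeasureTheory.measure_empty]
  have hU : MeasureTheory.volume (⋃ k, {z : Vec n | dot (a k) (P z) = c k}) = 0 :=
    MeasureTheory.measure_iUnion_null hH
  have hex : ∃ z, dist (P z) x0 < ρ ∧ z ∉ ⋃ k, {z : Vec n | dot (a k) (P z) = c k} := by
    by_contra hcon
    push Not at hcon
    have hsub : {z : Vec n | dist (P z) x0 < ρ} ⊆ ⋃ k, {z : Vec n | dot (a k) (P z) = c k} :=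
      fun z hz => hcon z hz
    have := MeasureTheory.measure_mono (μ := MeasureTheory.volume) hsub
    rw [hU] at this
    exact absurd hVpos (not_lt.2 this)
  obtain ⟨z, hz1, hz2⟩ := hex
  refine ⟨P z, hPmem z, hz1, fun k hk => hz2 ?_⟩
  exact Set.mem_iUnion.2 ⟨k, hk⟩

end SdAvoid

/-!
# Row 282, BP-S34-D, leaf L-S34D-8: root forms on the face of `μ` (at most one zero coordinate)

Notation: `s i = if mu i < 0 then -1 else 1`, so `mu i = s i * |mu i|`; level vector
`u κ = fun i => if |mu i| = κ then s i else 0`.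

(1) `sd_level_mem`: `InFace mu (u κ)`.  Let `β·mu = 0`, i.e. `σ mu_i + σ' mu_j = 0` (`sc_dot_vec`); then `|mu_i| = |mu_j|`;
    this common value is not `0` because of `hz` (`i ≠ j`); if it is `κ`, divide `σ s_i κ + σ' s_j κ = 0` by `κ`.
(2) `sd_face_coord`: for `x` in the face and `i, k` with `|mu i| = |mu k|`: `s i * x i = s k * x k`
    (trivial if `i = k`; otherwise use the root `s_i e_i - s_k e_k`, which vanishes at `mu`).
(3) `sd_face_indep`.  Let `β = σ e_i + σ' e_j`, `γ = τ e_k + τ' e_l`, `A = σ s_i`, `A' = σ' s_j`, `B = τ s_k`, `B' = τ' s_l`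
    (all `±1`).  Assume `(p, q) ≠ 0`; evaluation at `mu` shows `p ≠ 0` and `q ≠ 0`.  Evaluate `h` at the level vectors.
    Case `|mu_i| ≠ |mu_j|`: `γ·u ≠ 0` at both levels, so `{|mu_k|, |mu_l|} = {|mu_i|, |mu_j|}`; say `|mu_k| = |mu_i|`,
    `|mu_l| = |mu_j|`; `p A + q B = 0 = p A' + q B'` gives `A B = A' B' =: ε`, and (2) gives `γ = ε β` on the face.
    Case `|mu_i| = |mu_j| = κ`: `A = A'` (as `β·mu = κ (A + A') ≠ 0`); `γ·u κ' = 0` for `κ' ≠ κ` forces
    `|mu_k| = |mu_l| = κ` and `B = B'`; (2) gives `γ = A B β` on the face.  Both cases contradict `hne`.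
-/

section SdFace

/-- sign of a coordinate, `+1` at `0` -/
noncomputable def sdSgn (mu : Vec n) (i : Fin n) : ℝ := if mu i < 0 then -1 else 1

/-- level vector -/
noncomputable def sdLevel (mu : Vec n) (κ : ℝ) : Vec n :=
  fun i => if |mu i| = κ then sdSgn mu i else 0

theorem sd_sgn_sq (mu : Vec n) (i : Fin n) : sdSgn mu i * sdSgn mu i = 1 := by
  unfold sdSgn
  split_ifs <;> norm_num

theorem sd_sgn_mul (mu : Vec n) (i : Fin n) : sdSgn mu i * mu i = |mu i| := by
  unfold sdSgn
  split_ifs with h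
  · rw [abs_of_neg h]; ring
  · rw [abs_of_nonneg (not_lt.1 h)]; ring

theorem sd_dot_vec' (β : RootD n) (x : Vec n) :
    dot β.vec x = sgnB β.si * x β.i + sgnB β.sj * x β.j := by
  rw [sc_dot_comm, sc_dot_vec]

/-- a root form in the level coordinates `sdSgn mu m * x m` -/
theorem sd_dot_vec_X (mu x : Vec n) (β : RootD n) :
    dot β.vec x = (sgnB β.si * sdSgn mu β.i) * (sdSgn mu β.i * x β.i)
      + (sgnB β.sj * sdSgn mu β.j) * (sdSgn mu β.j * x β.j) := by
  rw [sd_dot_vec']
  have h1 := sd_sgn_sq mu β.i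
  have h2 := sd_sgn_sq mu β.j
  linear_combination (-(sgnB β.si * x β.i)) * h1 - (sgnB β.sj * x β.j) * h2

theorem sd_sgn_level (mu : Vec n) (κ : ℝ) (m : Fin n) :
    sdSgn mu m * sdLevel mu κ m = if |mu m| = κ then 1 else 0 := by
  unfold sdLevel
  split_ifs
  · exact sd_sgn_sq mu m
  · simp

theorem sd_coef_sq (mu : Vec n) (b : Bool) (m : Fin n) :
    (sgnB b * sdSgn mu m) * (sgnB b * sdSgn mu m) = 1 := by
  have h1 := sd_sgn_sq mu m
  have h2 := sc_sgnB_mul_self b
  calc (sgnB b * sdSgn mu m) * (sgnB b * sdSgn mu m)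
      = (sgnB b * sgnB b) * (sdSgn mu m * sdSgn mu m) := by ring
    _ = 1 := by rw [h1, h2]; norm_num

theorem sd_zero_unique (mu : Vec n) (hz : (Finset.univ.filter fun i => mu i = 0).card ≤ 1)
    (i j : Fin n) (hi : mu i = 0) (hj : mu j = 0) : i = j :=
  Finset.card_le_one.1 hz i (by simp [hi]) j (by simp [hj])

theorem sd_level_mem (mu : Vec n) (hz : (Finset.univ.filter fun i => mu i = 0).card ≤ 1)
    (κ : ℝ) : InFace mu (sdLevel mu κ) := by
  intro β hβ
  rw [sd_dot_vec_X mu] at hβ ⊢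
  rw [sd_sgn_mul, sd_sgn_mul] at hβ
  rw [sd_sgn_level, sd_sgn_level]
  have hA := sd_coef_sq mu β.si β.i
  have hA' := sd_coef_sq mu β.sj β.j
  set A := sgnB β.si * sdSgn mu β.i
  set A' := sgnB β.sj * sdSgn mu β.j
  have habs : |mu β.i| = |mu β.j| := by
    rcases mul_self_eq_one_iff.1 hA with h | h <;> rcases mul_self_eq_one_iff.1 hA' with h' | h'
    · rw [h, h'] at hβ
      have h1 := abs_nonneg (mu β.i)
      have h2 := abs_nonneg (mu β.j)
      linarith
    · rw [h, h'] at hβ; linarith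
    · rw [h, h'] at hβ; linarith
    · rw [h, h'] at hβ
      have h1 := abs_nonneg (mu β.i)
      have h2 := abs_nonneg (mu β.j)
      linarith
  by_cases hκ : |mu β.i| = κ
  · have hκ' : |mu β.j| = κ := habs ▸ hκ
    rw [if_pos hκ, if_pos hκ']
    have hne : κ ≠ 0 := by
      intro h0
      rw [h0] at hκ hκ'
      exact β.ne (sd_zero_unique mu hz _ _ (abs_eq_zero.1 hκ) (abs_eq_zero.1 hκ'))
    rw [hκ, hκ'] at hβ
    have : (A * 1 + A' * 1) * κ = 0 := by linarith
    exact (mul_eq_zero.1 this).resolve_right hne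
  · have hκ' : ¬ |mu β.j| = κ := habs ▸ hκ
    rw [if_neg hκ, if_neg hκ']
    ring

theorem sd_face_coord (mu x : Vec n) (hx : InFace mu x) (i k : Fin n) (h : |mu i| = |mu k|) :
    sdSgn mu i * x i = sdSgn mu k * x k := by
  by_cases hik : i = k
  · rw [hik]
  · have hs : ∀ m : Fin n, sgnB (decide (mu m < 0)) = sdSgn mu m := by
      intro m
      unfold sgnB sdSgn
      by_cases hm : mu m < 0 <;> simp [hm]
    have hs' : ∀ m : Fin n, sgnB (!decide (mu m < 0)) = - sdSgn mu m := by
      intro m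
      unfold sgnB sdSgn
      by_cases hm : mu m < 0 <;> simp [hm]
    have := hx ⟨i, k, hik, decide (mu i < 0), !decide (mu k < 0)⟩ (by
      rw [sd_dot_vec']
      simp only [hs, hs']
      have h1 := sd_sgn_mul mu i
      have h2 := sd_sgn_mul mu k
      linarith)
    rw [sd_dot_vec'] at this
    simp only [hs, hs'] at this
    linarith

theorem sd_sign_aux (A A' B B' p q : ℝ) (hA : A * A = 1) (hA' : A' * A' = 1) (hB : B * B = 1)
    (hB' : B' * B' = 1) (hq : q ≠ 0) (h1 : p * A + q * B = 0) (h2 : p * A' + q * B' = 0) :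
    (B = A ∧ B' = A') ∨ (B = -A ∧ B' = -A') := by
  rcases mul_self_eq_one_iff.1 hA with rfl | rfl <;>
  rcases mul_self_eq_one_iff.1 hA' with rfl | rfl <;>
  rcases mul_self_eq_one_iff.1 hB with rfl | rfl <;>
  rcases mul_self_eq_one_iff.1 hB' with rfl | rfl <;>
  first
  | (left; constructor <;> norm_num; done)
  | (right; constructor <;> norm_num; done)
  | (exact absurd (by linarith) hq)

theorem sd_face_indep (mu : Vec n) (hz : (Finset.univ.filter fun i => mu i = 0).card ≤ 1)
    (β γ : RootD n) (hβ : dot β.vec mu ≠ 0) (hγ : dot γ.vec mu ≠ 0) (hne : ¬ SdFaceEq mu β γ)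
    (p q : ℝ) (h : ∀ x, InFace mu x → p * dot β.vec x + q * dot γ.vec x = 0) :
    p = 0 ∧ q = 0 := by
  by_contra hcon
  apply hne
  -- both coefficients are nonzero
  have hmu := h mu (sc_inFace_sum mu)
  have hp : p ≠ 0 := by
    intro hp
    rw [hp, zero_mul, zero_add] at hmu
    exact hcon ⟨hp, (mul_eq_zero.1 hmu).resolve_right hγ⟩
  have hq : q ≠ 0 := by
    intro hq
    rw [hq, zero_mul, add_zero] at hmu
    exact hcon ⟨(mul_eq_zero.1 hmu).resolve_right hβ, hq⟩
  have hA := sd_coef_sq mu β.si β.i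
  have hA' := sd_coef_sq mu β.sj β.j
  have hB := sd_coef_sq mu γ.si γ.i
  have hB' := sd_coef_sq mu γ.sj γ.j
  have E : ∀ κ : ℝ, p * ((sgnB β.si * sdSgn mu β.i) * (if |mu β.i| = κ then 1 else 0)
      + (sgnB β.sj * sdSgn mu β.j) * (if |mu β.j| = κ then 1 else 0))
      + q * ((sgnB γ.si * sdSgn mu γ.i) * (if |mu γ.i| = κ then 1 else 0)
      + (sgnB γ.sj * sdSgn mu γ.j) * (if |mu γ.j| = κ then 1 else 0)) = 0 := by
    intro κ
    have := h _ (sd_level_mem mu hz κ)
    rw [sd_dot_vec_X mu _ β, sd_dot_vec_X mu _ γ] at this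
    simpa only [sd_sgn_level] using this
  rw [sd_dot_vec_X mu mu β, sd_sgn_mul, sd_sgn_mul] at hβ
  rw [sd_dot_vec_X mu mu γ, sd_sgn_mul, sd_sgn_mul] at hγ
  have hform : ∀ (ε : ℝ) (x : Vec n),
      (sgnB β.si * sdSgn mu β.i) * (sdSgn mu β.i * x β.i)
        + (sgnB β.sj * sdSgn mu β.j) * (sdSgn mu β.j * x β.j)
      = ε * ((sgnB γ.si * sdSgn mu γ.i) * (sdSgn mu γ.i * x γ.i)
        + (sgnB γ.sj * sdSgn mu γ.j) * (sdSgn mu γ.j * x γ.j)) →
      dot β.vec x = ε * dot γ.vec x := by
    intro ε x hx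
    rw [sd_dot_vec_X mu x β, sd_dot_vec_X mu x γ]
    exact hx
  generalize sgnB β.si * sdSgn mu β.i = A at *
  generalize sgnB β.sj * sdSgn mu β.j = A' at *
  generalize sgnB γ.si * sdSgn mu γ.i = B at *
  generalize sgnB γ.sj * sdSgn mu γ.j = B' at *
  have hfin : ((∀ x, InFace mu x → A * (sdSgn mu β.i * x β.i) + A' * (sdSgn mu β.j * x β.j)
        = 1 * (B * (sdSgn mu γ.i * x γ.i) + B' * (sdSgn mu γ.j * x γ.j))) ∨
      (∀ x, InFace mu x → A * (sdSgn mu β.i * x β.i) + A' * (sdSgn mu β.j * x β.j)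
        = (-1) * (B * (sdSgn mu γ.i * x γ.i) + B' * (sdSgn mu γ.j * x γ.j)))) →
      SdFaceEq mu β γ := by
    rintro (h1 | h1)
    · left
      intro x hx
      rw [hform 1 x (h1 x hx), one_mul]
    · right
      intro x hx
      rw [hform (-1) x (h1 x hx)]
      ring
  apply hfin
  have hBne : B ≠ 0 := fun h0 => by rw [h0] at hB; norm_num at hB
  have hB'ne : B' ≠ 0 := fun h0 => by rw [h0] at hB'; norm_num at hB'
  have hAne : A ≠ 0 := fun h0 => by rw [h0] at hA; norm_num at hA
  have hA'ne : A' ≠ 0 := fun h0 => by rw [h0] at hA'; norm_num at hA'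
  by_cases haa : |mu β.i| = |mu β.j|
  · -- one level for `β`
    have hAA : A = A' := by
      rcases mul_self_eq_one_iff.1 hA with h1 | h1 <;> rcases mul_self_eq_one_iff.1 hA' with h2 | h2
      · rw [h1, h2]
      · exfalso; apply hβ; rw [h1, h2, haa]; ring
      · exfalso; apply hβ; rw [h1, h2, haa]; ring
      · rw [h1, h2]
    subst hAA
    by_cases hbb : |mu γ.i| = |mu γ.j|
    · have hBB : B = B' := by
        rcases mul_self_eq_one_iff.1 hB with h1 | h1 <;>
          rcases mul_self_eq_one_iff.1 hB' with h2 | h2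
        · rw [h1, h2]
        · exfalso; apply hγ; rw [h1, h2, hbb]; ring
        · exfalso; apply hγ; rw [h1, h2, hbb]; ring
        · rw [h1, h2]
      subst hBB
      have hab : |mu β.i| = |mu γ.i| := by
        by_contra hab
        have E1 := E |mu γ.i|
        rw [if_neg hab, if_neg (haa ▸ hab), if_pos rfl, if_pos hbb.symm] at E1
        have : q * B = 0 := by linarith
        exact (mul_ne_zero hq hBne) this
      have hX : ∀ x, InFace mu x → sdSgn mu β.j * x β.j = sdSgn mu β.i * x β.i ∧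
          sdSgn mu γ.i * x γ.i = sdSgn mu β.i * x β.i ∧
          sdSgn mu γ.j * x γ.j = sdSgn mu β.i * x β.i := fun x hx =>
        ⟨sd_face_coord mu x hx _ _ haa.symm, sd_face_coord mu x hx _ _ hab.symm,
          sd_face_coord mu x hx _ _ (hbb.symm.trans hab.symm)⟩
      rcases mul_self_eq_one_iff.1 hA with h1 | h1 <;> rcases mul_self_eq_one_iff.1 hB with h2 | h2
      · left; intro x hx; obtain ⟨e1, e2, e3⟩ := hX x hx; rw [e1, e2, e3, h1, h2]; ring
      · right; intro x hx; obtain ⟨e1, e2, e3⟩ := hX x hx; rw [e1, e2, e3, h1, h2]; ring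
      · right; intro x hx; obtain ⟨e1, e2, e3⟩ := hX x hx; rw [e1, e2, e3, h1, h2]; ring
      · left; intro x hx; obtain ⟨e1, e2, e3⟩ := hX x hx; rw [e1, e2, e3, h1, h2]; ring
    · exfalso
      have h1 : |mu β.i| = |mu γ.i| := by
        by_contra hab
        have E1 := E |mu γ.i|
        rw [if_neg hab, if_neg (haa ▸ hab), if_pos rfl, if_neg (Ne.symm hbb)] at E1
        have : q * B = 0 := by linarith
        exact (mul_ne_zero hq hBne) this
      have h2 : |mu β.i| = |mu γ.j| := by
        by_contra hab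
        have E1 := E |mu γ.j|
        rw [if_neg hab, if_neg (haa ▸ hab), if_pos rfl, if_neg hbb] at E1
        have : q * B' = 0 := by linarith
        exact (mul_ne_zero hq hB'ne) this
      exact hbb (h1.symm.trans h2)
  · -- two levels for `β`
    have E1 := E |mu β.i|
    have E2 := E |mu β.j|
    rw [if_pos rfl, if_neg (Ne.symm haa)] at E1
    rw [if_neg haa, if_pos rfl] at E2
    by_cases hb : |mu γ.i| = |mu β.i|
    · have hb2 : ¬ |mu γ.i| = |mu β.j| := fun h' => haa (hb.symm.trans h')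
      rw [if_neg hb2] at E2
      have hb' : |mu γ.j| = |mu β.j| := by
        by_contra hb'
        rw [if_neg hb'] at E2
        have : p * A' = 0 := by linarith
        exact (mul_ne_zero hp hA'ne) this
      have hb'2 : ¬ |mu γ.j| = |mu β.i| := fun h' => haa (h'.symm.trans hb')
      rw [if_pos hb'] at E2
      rw [if_pos hb, if_neg hb'2] at E1
      have hX : ∀ x, InFace mu x → sdSgn mu γ.i * x γ.i = sdSgn mu β.i * x β.i ∧
          sdSgn mu γ.j * x γ.j = sdSgn mu β.j * x β.j := fun x hx =>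
        ⟨sd_face_coord mu x hx _ _ hb, sd_face_coord mu x hx _ _ hb'⟩
      rcases sd_sign_aux A A' B B' p q hA hA' hB hB' hq (by linarith) (by linarith) with
        ⟨h1, h2⟩ | ⟨h1, h2⟩
      · left; intro x hx; obtain ⟨e1, e2⟩ := hX x hx; rw [e1, e2, h1, h2]; ring
      · right; intro x hx; obtain ⟨e1, e2⟩ := hX x hx; rw [e1, e2, h1, h2]; ring
    · rw [if_neg hb] at E1
      have hb' : |mu γ.j| = |mu β.i| := by
        by_contra hb'
        rw [if_neg hb'] at E1
        have : p * A = 0 := by linarith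
        exact (mul_ne_zero hp hAne) this
      have hb'2 : ¬ |mu γ.j| = |mu β.j| := fun h' => haa (hb'.symm.trans h')
      rw [if_pos hb'] at E1
      rw [if_neg hb'2] at E2
      have hb2 : |mu γ.i| = |mu β.j| := by
        by_contra hb2
        rw [if_neg hb2] at E2
        have : p * A' = 0 := by linarith
        exact (mul_ne_zero hp hA'ne) this
      rw [if_pos hb2] at E2
      have hX : ∀ x, InFace mu x → sdSgn mu γ.i * x γ.i = sdSgn mu β.j * x β.j ∧
          sdSgn mu γ.j * x γ.j = sdSgn mu β.i * x β.i := fun x hx =>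
        ⟨sd_face_coord mu x hx _ _ hb2, sd_face_coord mu x hx _ _ hb'⟩
      rcases sd_sign_aux A A' B' B p q hA hA' hB' hB hq (by linarith) (by linarith) with
        ⟨h1, h2⟩ | ⟨h1, h2⟩
      · left; intro x hx; obtain ⟨e1, e2⟩ := hX x hx; rw [e1, e2, h1, h2]; ring
      · right; intro x hx; obtain ⟨e1, e2⟩ := hX x hx; rw [e1, e2, h1, h2]; ring

end SdFace

/-!
# Row 282, BP-S34-D, leaf L-S34D-9: choice of the break values

`sd_step`: apply `sd_avoid` to the countable index type
`{k : RootD n × ℤ // …} ⊕ {k : RootD n × RootD n × ℤ × ℤ // …} ⊕ {… // …}` (`sc_finite_RootD` gives `Countable (RootD n)`):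
* `(β, a)` with `β·mu ≠ 0`: hyperplane `dot β.vec x = a / 2`; the form does not vanish at `mu ∈ F`;
* `(β, γ, a, b)` as in `SdSegAvoid mu p`, with `A = a/2 - β·p ≠ 0`, `B = b/2 - γ·p`:
  hyperplane `dot (A • γ.vec - B • β.vec) x = dot (A • γ.vec - B • β.vec) p`; the form does not vanish on the face by
  `sd_face_indep` (otherwise `A = 0`);
* the same with `mu` in the place of `p`.
-/

section SdStep

theorem sd_step (mu : Vec n) (hz : (Finset.univ.filter fun i => mu i = 0).card ≤ 1)
    (p q0 : Vec n) (hq0 : InFace mu q0) (ρ : ℝ) (hρ : 0 < ρ) :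
    ∃ q, InFace mu q ∧ dist q q0 < ρ ∧ SdNoLevel mu q ∧ SdSegAvoid mu p q ∧
      SdSegAvoid mu mu q := by
  classical
  have := sc_finite_RootD (n := n)
  let base : Bool → Vec n := fun b => if b then p else mu
  let K1 := {k : RootD n × ℤ // dot k.1.vec mu ≠ 0}
  let K2 := {k : Bool × RootD n × RootD n × ℤ × ℤ // dot k.2.1.vec mu ≠ 0 ∧
    dot k.2.2.1.vec mu ≠ 0 ∧ ¬ SdFaceEq mu k.2.1 k.2.2.1 ∧
    (k.2.2.2.1 : ℝ) / 2 - dot k.2.1.vec (base k.1) ≠ 0}
  let form : K2 → Vec n := fun k =>
    ((k.1.2.2.2.1 : ℝ) / 2 - dot k.1.2.1.vec (base k.1.1)) • k.1.2.2.1.vec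
      - ((k.1.2.2.2.2 : ℝ) / 2 - dot k.1.2.2.1.vec (base k.1.1)) • k.1.2.1.vec
  let a : K1 ⊕ K2 → Vec n := fun k => Sum.elim (fun k1 => k1.1.1.vec) form k
  let c : K1 ⊕ K2 → ℝ := fun k =>
    Sum.elim (fun k1 => (k1.1.2 : ℝ) / 2) (fun k2 => dot (form k2) (base k2.1.1)) k
  have hform : ∀ (k : K2) (x : Vec n), dot (form k) x
      = ((k.1.2.2.2.1 : ℝ) / 2 - dot k.1.2.1.vec (base k.1.1)) * dot k.1.2.2.1.vec x
        - ((k.1.2.2.2.2 : ℝ) / 2 - dot k.1.2.2.1.vec (base k.1.1)) * dot k.1.2.1.vec x := by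
    intro k x
    simp only [form, sc_dot_sub_left, sc_dot_smul_left]
  obtain ⟨q, hq1, hq2, hq3⟩ := sd_avoid mu q0 hq0 ρ hρ a c (by
    rintro (k | k)
    · exact ⟨mu, sc_inFace_sum mu, k.2⟩
    · by_contra hcon
      push Not at hcon
      have := sd_face_indep mu hz k.1.2.1 k.1.2.2.1 k.2.1 k.2.2.1 k.2.2.2.1
        (-((k.1.2.2.2.2 : ℝ) / 2 - dot k.1.2.2.1.vec (base k.1.1)))
        ((k.1.2.2.2.1 : ℝ) / 2 - dot k.1.2.1.vec (base k.1.1)) (fun x hx => by
          have h1 := hcon x hx
          simp only [a, Sum.elim_inr] at h1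
          rw [hform] at h1
          linarith)
      exact k.2.2.2.2 this.2)
  have hseg : ∀ b : Bool, SdSegAvoid mu (base b) q := by
    intro b β γ hβ hγ hne z z' hA
    have h1 := hq3 (Sum.inr ⟨(b, β, γ, z, z'), hβ, hγ, hne, hA⟩)
    simp only [a, c, Sum.elim_inr] at h1
    rw [hform, hform] at h1
    simp only at h1
    intro h2
    apply h1
    rw [sc_dot_sub_right, sc_dot_sub_right] at h2
    linarith
  refine ⟨q, hq1, hq2, ?_, hseg true, hseg false⟩
  intro β hβ ⟨z, hz'⟩
  have h1 := hq3 (Sum.inl ⟨(β, z), hβ⟩)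
  simp only [a, c, Sum.elim_inl] at h1
  apply h1
  linarith

/-- the sequence of break values (recursion + choice) -/
theorem sd_breaks (mu : Vec n) (hz : (Finset.univ.filter fun i => mu i = 0).card ≤ 1)
    (x0 : ℕ → Vec n) (hx0 : ∀ k, InFace mu (x0 k)) (ρ : ℝ) (hρ : 0 < ρ) :
    ∃ x : ℕ → Vec n, x 0 = 0 ∧ ∀ k, InFace mu (x (k + 1)) ∧ dist (x (k + 1)) (x0 (k + 1)) < ρ ∧
      SdNoLevel mu (x (k + 1)) ∧ SdSegAvoid mu (x k) (x (k + 1)) ∧
      SdSegAvoid mu mu (x (k + 1)) := by
  have hstep : ∀ (k : ℕ) (p : Vec n), ∃ q, InFace mu q ∧ dist q (x0 (k + 1)) < ρ ∧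
      SdNoLevel mu q ∧ SdSegAvoid mu p q ∧ SdSegAvoid mu mu q :=
    fun k p => sd_step mu hz p (x0 (k + 1)) (hx0 (k + 1)) ρ hρ
  choose F hF using hstep
  exact ⟨fun k => Nat.rec 0 (fun k p => F k p) k, rfl, fun k => hF k _⟩

end SdStep

/-!
# Row 282, BP-S34-D, leaf L-S34D-10: from break values to a generic shape

`sd_seg_left`: if `β·(p + s (q-p)) = a/2` and `γ·(p + s (q-p)) = b/2` then `a/2 - β·p = s β·(q-p) ≠ 0` and
`(a/2 - β·p) γ·(q-p) - (b/2 - γ·p) β·(q-p) = 0`.  `sd_seg_right`: `p + s (q-p) = q + (1-s) (p-q)`.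

`sd_generic_of_breaks`: `(sdShape T x).take k` has sum `x k` (telescoping), so by `sc_val_segment`
`val t = x k + (t - k) • (x (k+1) - x k)` for `k ≤ t ≤ k+1`, `val k = x k` (`sc_val_nat`).  For `single` take `k = ⌊t⌋₊`.
`dom` and `relint` from `sd_relInt_dom`, `sd_relInt_relint`.
-/

section SdSeg

theorem sd_relInt_nonneg (mu v : Vec n) (hv : SdRelInt mu v) (β : RootD n)
    (h : 0 ≤ dot β.vec mu) : 0 ≤ dot β.vec v := by
  rcases h.eq_or_lt with h | h
  · exact (hv.1 β h.symm).ge
  · exact (hv.2 β h).le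

theorem sd_relInt_dom (mu v : Vec n) (hmu : Dom mu) (hv : SdRelInt mu v) : Dom v := by
  intro i j hij
  have h := abs_le.1 (hmu i j hij)
  have h1 := sd_relInt_nonneg mu v hv ⟨i, j, hij.ne, false, true⟩ (by
    rw [sd_dot_vec']; simp only [sgnB]; simp; linarith [h.2])
  have h2 := sd_relInt_nonneg mu v hv ⟨i, j, hij.ne, false, false⟩ (by
    rw [sd_dot_vec']; simp only [sgnB]; simp; linarith [h.1])
  rw [sd_dot_vec'] at h1 h2
  simp only [sgnB] at h1 h2
  simp at h1 h2
  exact abs_le.2 ⟨by linarith, by linarith⟩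

theorem sd_relInt_ne (mu v : Vec n) (hv : SdRelInt mu v) (β : RootD n)
    (h : dot β.vec mu ≠ 0) : dot β.vec v ≠ 0 := by
  rcases lt_or_gt_of_ne h with h | h
  · have := hv.2 β.opp (by rw [sc_neg_vec, sc_dot_neg_left]; linarith)
    rw [sc_neg_vec, sc_dot_neg_left] at this
    linarith
  · exact (hv.2 β h).ne'

theorem sd_seg_left (mu p q : Vec n) (h : SdSegAvoid mu p q)
    (hne : ∀ β : RootD n, dot β.vec mu ≠ 0 → dot β.vec (q - p) ≠ 0) : SdSegOK mu p q := by
  intro s hs0 hs1 β γ hβ hγ ⟨a, ha⟩ ⟨b, hb⟩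
  by_contra hcon
  rw [sc_dot_add_right, sc_dot_smul_right] at ha hb
  have hA : (a : ℝ) / 2 - dot β.vec p = s * dot β.vec (q - p) := by linarith
  have hB : (b : ℝ) / 2 - dot γ.vec p = s * dot γ.vec (q - p) := by linarith
  refine h β γ hβ hγ hcon a b ?_ ?_
  · rw [hA]
    exact mul_ne_zero hs0.ne' (hne β hβ)
  · rw [hA, hB]
    ring

theorem sd_seg_right (mu p q : Vec n) (h : SdSegAvoid mu q p)
    (hne : ∀ β : RootD n, dot β.vec mu ≠ 0 → dot β.vec (q - p) ≠ 0) : SdSegOK mu p q := by
  intro s hs0 hs1 β γ hβ hγ ⟨a, ha⟩ ⟨b, hb⟩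
  by_contra hcon
  rw [sc_dot_add_right, sc_dot_smul_right, sc_dot_sub_right] at ha hb
  have hA : (a : ℝ) / 2 - dot β.vec q = (1 - s) * dot β.vec (p - q) := by
    rw [sc_dot_sub_right]; linarith
  have hB : (b : ℝ) / 2 - dot γ.vec q = (1 - s) * dot γ.vec (p - q) := by
    rw [sc_dot_sub_right]; linarith
  refine h β γ hβ hγ hcon a b ?_ ?_
  · rw [hA]
    refine mul_ne_zero (by linarith) ?_
    have := hne β hβ
    rw [sc_dot_sub_right] at this ⊢
    intro h0
    apply this
    linarith
  · rw [hA, hB]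
    ring

theorem sd_shape_length (T : ℕ) (x : ℕ → Vec n) : (sdShape T x).length = T := by
  simp [sdShape]

theorem sd_shape_getElem (T : ℕ) (x : ℕ → Vec n) (k : ℕ) (hk : k < (sdShape T x).length) :
    (sdShape T x)[k] = x (k + 1) - x k := by
  simp [sdShape]

theorem sd_shape_getD (T : ℕ) (x : ℕ → Vec n) (k : ℕ) (hk : k < T) :
    (sdShape T x).getD k 0 = x (k + 1) - x k := by
  rw [List.getD_eq_getElem _ _ (by rw [sd_shape_length]; exact hk), sd_shape_getElem]

theorem sd_shape_take_sum (T : ℕ) (x : ℕ → Vec n) (k : ℕ) (hk : k ≤ T) :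
    ((sdShape T x).take k).sum = x k - x 0 := by
  induction k with
  | zero => simp
  | succ k ih =>
    have hk' : k < (sdShape T x).length := by rw [sd_shape_length]; exact hk
    rw [List.take_succ_eq_append_getElem hk', List.sum_append, ih (by omega), sd_shape_getElem]
    simp

theorem sd_shape_sum (T : ℕ) (x : ℕ → Vec n) : (sdShape T x).sum = x T - x 0 := by
  have := sd_shape_take_sum T x T le_rfl
  rwa [List.take_of_length_le (by rw [sd_shape_length])] at this

theorem sd_generic_of_breaks (mu : Vec n) (hmu : Dom mu) (T : ℕ) (hT : 0 < T) (x : ℕ → Vec n)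
    (h0 : x 0 = 0) (hT' : x T = mu) (hrel : ∀ k, k < T → SdRelInt mu (x (k + 1) - x k))
    (hlev : ∀ k, 0 < k → k < T → SdNoLevel mu (x k))
    (hseg : ∀ k, k < T → SdSegOK mu (x k) (x (k + 1))) : GenericShape (sdShape T x) := by
  have hsum : (sdShape T x).sum = mu := by rw [sd_shape_sum, h0, hT', sub_zero]
  have hlen := sd_shape_length T x
  have hmem : ∀ v ∈ sdShape T x, SdRelInt mu v := by
    intro v hv
    obtain ⟨k, hk, rfl⟩ := List.mem_iff_getElem.1 hv
    rw [sd_shape_getElem]
    exact hrel k (hlen ▸ hk)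
  have hnat : ∀ k, k ≤ T → (sdShape T x).val (k : ℝ) = x k := by
    intro k hk
    rw [sc_val_nat, sd_shape_take_sum T x k hk, h0, sub_zero]
  refine ⟨?_, fun v hv => sd_relInt_dom mu v hmu (hmem v hv), ?_, ?_, ?_⟩
  · intro h
    rw [h] at hlen
    simp at hlen
    omega
  · intro v hv β hβ
    rw [hsum]
    by_contra hcon
    exact sd_relInt_ne mu v (hmem v hv) β hcon hβ
  · intro t ht0 ht1 β γ hβ hγ hb hg
    rw [hsum] at hβ hγ ⊢
    rw [hlen] at ht1
    set k := ⌊t⌋₊ with hk
    have hkt : (k : ℝ) ≤ t := Nat.floor_le ht0.le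
    have htk : t < (k : ℝ) + 1 := Nat.lt_floor_add_one t
    have hkT : k < T := by
      have : (k : ℝ) < T := lt_of_le_of_lt hkt ht1
      exact_mod_cast this
    rcases hkt.eq_or_lt with hkt' | hkt'
    · exfalso
      have hk0 : 0 < k := by
        have : (0 : ℝ) < k := by rw [hkt']; exact ht0
        exact_mod_cast this
      rw [← hkt', hnat k hkT.le] at hb
      exact hlev k hk0 hkT β hβ hb
    · have hval : (sdShape T x).val t = x k + (t - k) • (x (k + 1) - x k) := by
        rw [sc_val_segment _ k (by rw [hlen]; exact hkT) t hkt htk.le,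
          sd_shape_take_sum T x k hkT.le, h0, sub_zero, sd_shape_getElem]
      rw [hval] at hb hg
      exact hseg k hkT (t - k) (by linarith) (by linarith) β γ hβ hγ hb hg
  · intro k hk0 hk1 β hβ
    rw [hsum] at hβ
    rw [hlen] at hk1
    rw [hnat k hk1.le]
    exact hlev k hk0 hk1 β hβ

end SdSeg

/-!
# Row 282, BP-S34-D, leaf L-S34D-11: generic shapes are dense

`sd_dense`.  Put `mu = θ.sum`, `T = θ.length ≥ 2`.  Root pairings of `mu` are integers (`sc_wt_dot_root`), so
`0 < β·mu` implies `1 ≤ β·mu`.  Choose `M` with `dist (θ.getD k 0) ((1/T) • mu) ≤ M` for all `k` (finitely many `k < T`;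
for `k ≥ T` the entry is `0`), `δ ∈ (0, 1]` with `δ * M ≤ ε / 2`, `ρ = min (ε / 4) (δ / (4 T))`.
Interpolated break values `x0 k = (1 - δ) • (θ.take k).sum + (δ * k / T) • mu`:
`x0 0 = 0`, `x0 T = mu`, `x0 (k+1) - x0 k = (1 - δ) • θ[k] + (δ / T) • mu` for `k < T`, all in the face (`sc_inFace_mem`),
and `δ / T ≤ β·(x0 (k+1) - x0 k)` whenever `0 < β·mu` (`sc_root_nonneg_of_sum`).
`sd_breaks` gives `x`; put `x' k = if k < T then x k else mu`.  Then `x' k - x0 k` is in the face and of norm `< ρ`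
for all `k ≤ T` (it is `0` for `k = 0, T`); `sd_relInt_perturb` with `c = δ / T` gives `SdRelInt`;
`sd_seg_left` for `k + 1 < T`, `sd_seg_right` for `k + 1 = T` (here `T - 1 ≥ 1` is used); `sd_generic_of_breaks`.
Distance: `dist θ[k] (x'(k+1) - x' k) ≤ δ * M + 2 ρ ≤ ε`.
-/

section SdDense

/-- `|β·z| ≤ 2 ‖z‖` in the sup metric of `Fin n → ℝ` -/
theorem sd_abs_dot_root_le (β : RootD n) (z : Vec n) : |dot β.vec z| ≤ 2 * dist z 0 := by
  rw [sd_dot_vec', dist_zero_right]
  have h1 : |z β.i| ≤ ‖z‖ := norm_le_pi_norm z β.i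
  have h2 : |z β.j| ≤ ‖z‖ := norm_le_pi_norm z β.j
  have h3 : ∀ b : Bool, |sgnB b| = 1 := by
    intro b
    rcases sc_sgnB_cases b with h | h <;> rw [h] <;> norm_num
  calc |sgnB β.si * z β.i + sgnB β.sj * z β.j|
      ≤ |sgnB β.si * z β.i| + |sgnB β.sj * z β.j| := abs_add_le _ _
    _ = |z β.i| + |z β.j| := by rw [abs_mul, abs_mul, h3, h3, one_mul, one_mul]
    _ ≤ 2 * ‖z‖ := by linarith

theorem sd_relInt_perturb (mu v z : Vec n) (c : ℝ) (hv : InFace mu v) (hz : InFace mu z)
    (hc : ∀ β : RootD n, 0 < dot β.vec mu → c ≤ dot β.vec v) (hzc : 2 * dist z 0 < c) :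
    SdRelInt mu (v + z) := by
  refine ⟨sc_inFace_add mu v z hv hz, fun β hβ => ?_⟩
  rw [sc_dot_add_right]
  have h1 := hc β hβ
  have h2 := (abs_le.1 (sd_abs_dot_root_le β z)).1
  linarith

theorem sd_inFace_sub (mu x y : Vec n) (hx : InFace mu x) (hy : InFace mu y) :
    InFace mu (x - y) := by
  have := sc_inFace_add mu x ((-1 : ℝ) • y) hx (sc_inFace_smul mu y (-1) hy)
  have h2 : x - y = x + (-1 : ℝ) • y := by
    rw [neg_one_smul, sub_eq_add_neg]
  rwa [h2]

theorem sd_inFace_zero (mu : Vec n) : InFace mu 0 := fun _ _ => sc_dot_zero_right _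

theorem sd_exists_bound (θ : Shape n) (w : Vec n) : ∃ M : ℝ, 0 ≤ M ∧ ∀ v ∈ θ, dist v w ≤ M := by
  induction θ with
  | nil => exact ⟨0, le_rfl, by simp⟩
  | cons u θ ih =>
    obtain ⟨M, hM0, hM⟩ := ih
    refine ⟨max M (dist u w), le_max_of_le_left hM0, fun v hv => ?_⟩
    rcases List.mem_cons.1 hv with rfl | hv
    · exact le_max_right _ _
    · exact (hM v hv).trans (le_max_left _ _)

/-- D4 -/
theorem sd_dense (θ : Shape n) (hdom : ∀ v ∈ θ, Dom v) (wm : IsWtD θ.sum)
    (hz : (Finset.univ.filter fun i => θ.sum i = 0).card ≤ 1) (h2 : 2 ≤ θ.length)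
    (ε : ℝ) (hε : 0 < ε) :
    ∃ θ' : Shape n, GenericShape θ' ∧ θ'.sum = θ.sum ∧ θ'.length = θ.length ∧
      ∀ i, dist (θ.getD i 0) (θ'.getD i 0) ≤ ε := by
  classical
  set mu := θ.sum with hmu
  set T := θ.length with hT
  have hTpos : (0 : ℝ) < T := by
    have : 0 < T := by omega
    exact_mod_cast this
  obtain ⟨M, hM0, hM⟩ := sd_exists_bound θ ((1 / (T : ℝ)) • mu)
  -- constants
  set δ : ℝ := min 1 (ε / (2 * (M + 1))) with hδ
  have hδ0 : 0 < δ := lt_min one_pos (by positivity)
  have hδ1 : δ ≤ 1 := min_le_left _ _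
  have hδM : δ * M ≤ ε / 2 := by
    have h1 : δ ≤ ε / (2 * (M + 1)) := min_le_right _ _
    have h3 : δ * M ≤ ε / (2 * (M + 1)) * M := mul_le_mul_of_nonneg_right h1 hM0
    have h4 : ε / (2 * (M + 1)) * M ≤ ε / 2 := by
      rw [div_mul_eq_mul_div, div_le_div_iff₀ (by positivity) (by norm_num)]
      nlinarith
    exact h3.trans h4
  set ρ : ℝ := min (ε / 4) (δ / (4 * T)) with hρ
  have hρ0 : 0 < ρ := lt_min (by positivity) (by positivity)
  have hρ1 : ρ ≤ ε / 4 := min_le_left _ _
  have hρ2 : 4 * ρ ≤ δ / T := by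
    have h1 : ρ ≤ δ / (4 * T) := min_le_right _ _
    have h3 : δ / (4 * T) = (δ / T) / 4 := by
      field_simp
    rw [h3] at h1
    linarith
  -- interpolated break values
  set x0 : ℕ → Vec n := fun k => (1 - δ) • (θ.take k).sum + (δ * k / T) • mu with hx0def
  have hx0 : ∀ k, InFace mu (x0 k) := by
    intro k
    refine sc_inFace_add _ _ _ (sc_inFace_smul _ _ _ ?_) (sc_inFace_smul _ _ _ (sc_inFace_sum mu))
    rw [← sc_val_nat]
    exact sc_inFace_val θ hdom _
  have hx00 : x0 0 = 0 := by simp [hx0def]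
  have hx0T : x0 T = mu := by
    simp only [hx0def]
    rw [List.take_of_length_le (le_of_eq hT.symm), ← hmu, mul_div_assoc, div_self hTpos.ne',
      mul_one, ← add_smul]
    simp
  have hΔ0 : ∀ k (hk : k < θ.length), x0 (k + 1) - x0 k = (1 - δ) • θ[k] + (δ / T) • mu := by
    intro k hk
    simp only [hx0def]
    rw [List.take_succ_eq_append_getElem hk, List.sum_append]
    simp only [List.sum_cons, List.sum_nil, add_zero, smul_add]
    have : (δ * ((k + 1 : ℕ) : ℝ) / T) • mu = (δ * k / T) • mu + (δ / T) • mu := by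
      rw [← add_smul]
      congr 1
      push_cast
      ring
    rw [this]
    abel
  obtain ⟨x, hxz, hx⟩ := sd_breaks mu hz x0 hx0 ρ hρ0
  set x' : ℕ → Vec n := fun k => if k < T then x k else mu with hx'def
  have hx'lt : ∀ k, k < T → x' k = x k := fun k hk => by simp [hx'def, hk]
  have hx'T : x' T = mu := by simp [hx'def]
  have hx'0 : x' 0 = 0 := by rw [hx'lt 0 (by omega), hxz]
  -- the perturbations
  have hzk : ∀ k, k ≤ T → InFace mu (x' k - x0 k) ∧ ‖x' k - x0 k‖ < ρ := by
    intro k hk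
    rcases Nat.eq_zero_or_pos k with rfl | hk0
    · rw [hx'0, hx00, sub_zero]
      exact ⟨sd_inFace_zero mu, by simpa using hρ0⟩
    · rcases hk.eq_or_lt with rfl | hk1
      · rw [hx'T, hx0T, sub_self]
        exact ⟨sd_inFace_zero mu, by simpa using hρ0⟩
      · obtain ⟨k', rfl⟩ : ∃ k', k = k' + 1 := ⟨k - 1, by omega⟩
        rw [hx'lt _ hk1]
        refine ⟨sd_inFace_sub _ _ _ (hx k').1 (hx0 _), ?_⟩
        rw [← dist_eq_norm]
        exact (hx k').2.1
  have hdiff : ∀ k (hk : k < θ.length), x' (k + 1) - x' k = ((1 - δ) • θ[k] + (δ / T) • mu)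
      + ((x' (k + 1) - x0 (k + 1)) - (x' k - x0 k)) := by
    intro k hk
    rw [← hΔ0 k hk]
    abel
  have hwnorm : ∀ k, k < T → ‖(x' (k + 1) - x0 (k + 1)) - (x' k - x0 k)‖ < 2 * ρ := by
    intro k hk
    have h1 := (hzk (k + 1) hk).2
    have h3 := (hzk k hk.le).2
    have := norm_sub_le (x' (k + 1) - x0 (k + 1)) (x' k - x0 k)
    linarith
  have hrel : ∀ k, k < T → SdRelInt mu (x' (k + 1) - x' k) := by
    intro k hk
    rw [hdiff k hk]
    refine sd_relInt_perturb mu _ _ (δ / T) ?_ ?_ ?_ ?_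
    · exact sc_inFace_add _ _ _ (sc_inFace_smul _ _ _ (sc_inFace_mem θ hdom _ (List.getElem_mem _)))
        (sc_inFace_smul _ _ _ (sc_inFace_sum mu))
    · exact sd_inFace_sub _ _ _ (hzk (k + 1) hk).1 (hzk k hk.le).1
    · intro β hβ
      rw [sc_dot_add_right, sc_dot_smul_right, sc_dot_smul_right]
      have h1 : 0 ≤ dot β.vec θ[k] := sc_root_nonneg_of_sum θ hdom β hβ.le _ (List.getElem_mem _)
      have h3 : 1 ≤ dot β.vec mu := by
        obtain ⟨z, hz'⟩ := sc_wt_dot_root mu wm β
        rw [sc_dot_comm] at hz'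
        rw [hz'] at hβ ⊢
        have : (0 : ℤ) < z := by exact_mod_cast hβ
        exact_mod_cast this
      have h4 : 0 ≤ (1 - δ) * dot β.vec θ[k] := mul_nonneg (by linarith) h1
      have h5 : δ / T ≤ δ / T * dot β.vec mu := by
        have : 0 < δ / T := by positivity
        nlinarith
      linarith
    · rw [dist_zero_right]
      have := hwnorm k hk
      linarith
  have hne : ∀ k, k < T → ∀ β : RootD n, dot β.vec mu ≠ 0 → dot β.vec (x' (k + 1) - x' k) ≠ 0 :=
    fun k hk β hβ => sd_relInt_ne mu _ (hrel k hk) β hβ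
  have hG : GenericShape (sdShape T x') := by
    refine sd_generic_of_breaks mu (sc_dom_sum θ hdom) T (by omega) x' hx'0 hx'T hrel ?_ ?_
    · intro k hk0 hk1
      obtain ⟨k', rfl⟩ : ∃ k', k = k' + 1 := ⟨k - 1, by omega⟩
      rw [hx'lt _ hk1]
      exact (hx k').2.2.1
    · intro k hk
      rcases Nat.lt_or_ge (k + 1) T with hk1 | hk1
      · apply sd_seg_left _ _ _ _ (hne k hk)
        rw [hx'lt _ hk1, hx'lt _ hk]
        exact (hx k).2.2.2.1
      · have hkT : k + 1 = T := by omega
        apply sd_seg_right _ _ _ _ (hne k hk)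
        obtain ⟨k', rfl⟩ : ∃ k', k = k' + 1 := ⟨k - 1, by omega⟩
        rw [hkT, hx'T, hx'lt _ hk]
        exact (hx k').2.2.2.2
  refine ⟨sdShape T x', hG, ?_, sd_shape_length T x', fun i => ?_⟩
  · rw [sd_shape_sum, hx'T, hx'0, sub_zero]
  · rcases Nat.lt_or_ge i T with hi | hi
    · rw [sd_shape_getD T x' i hi, List.getD_eq_getElem _ _ hi, hdiff i hi, dist_eq_norm]
      have h1 : θ[i] - ((1 - δ) • θ[i] + (δ / T) • mu
          + ((x' (i + 1) - x0 (i + 1)) - (x' i - x0 i)))
          = δ • (θ[i] - (1 / (T : ℝ)) • mu) - ((x' (i + 1) - x0 (i + 1)) - (x' i - x0 i)) := by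
        have : (δ / T) • mu = δ • ((1 / (T : ℝ)) • mu) := by
          rw [smul_smul]
          congr 1
          ring
        rw [this, smul_sub, sub_smul, one_smul]
        abel
      rw [h1]
      have h3 := norm_sub_le (δ • (θ[i] - (1 / (T : ℝ)) • mu))
        ((x' (i + 1) - x0 (i + 1)) - (x' i - x0 i))
      have h4 : ‖δ • (θ[i] - (1 / (T : ℝ)) • mu)‖ ≤ δ * M := by
        rw [norm_smul, Real.norm_eq_abs, abs_of_pos hδ0, ← dist_eq_norm]
        exact mul_le_mul_of_nonneg_left (hM _ (List.getElem_mem _)) hδ0.le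
      have h5 := hwnorm i hi
      linarith
    · rw [List.getD_eq_default _ _ hi, List.getD_eq_default _ _ (by rw [sd_shape_length]; exact hi),
        dist_self]
      exact hε.le

end SdDense

/-!
# Row 282, BP-S34-D: Lemma 3.4 (glue)
-/

section SdTop

theorem sd_halve_dom (θ : Shape n) (hdom : ∀ v ∈ θ, Dom v) : ∀ v ∈ θ.halve, Dom v := by
  intro v hv
  unfold Shape.halve at hv
  obtain ⟨u, hu, hvu⟩ := List.mem_flatMap.1 hv
  have hv' : v = (1 / 2 : ℝ) • u := by
    simpa using hvu
  subst hv'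
  intro i j hij
  have := hdom u hu i j hij
  simp only [Pi.smul_apply, smul_eq_mul, abs_mul]
  rw [abs_of_pos (by norm_num : (0 : ℝ) < 1 / 2)]
  linarith

/-- contract D (Lemma 3.4) -/
theorem sd_reduce_generic (lam xi : Vec n) (θ : Shape n) (L : Lbl lam θ xi)
    (h : ∀ θ' : Shape n, GenericShape θ' → θ'.sum = θ.sum → HasIntSchedule lam θ' xi) :
    HasIntSchedule lam θ xi := by
  apply sd_halve
  have hsum : θ.halve.sum = θ.sum := sc_halve_sum θ
  have hlen : 2 ≤ θ.halve.length := by
    rw [sc_halve_length]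
    have : 0 < θ.length := List.length_pos_iff.2 L.ne
    omega
  have hD : ∀ k : ℕ, ∃ θ' : Shape n, GenericShape θ' ∧ θ'.sum = θ.halve.sum ∧
      θ'.length = θ.halve.length ∧
      ∀ i, dist (θ.halve.getD i 0) (θ'.getD i 0) ≤ 1 / ((k : ℝ) + 1) := fun k =>
    sd_dense θ.halve (sd_halve_dom θ L.dom) (hsum ▸ L.wm) (hsum ▸ L.hz) hlen _ (by positivity)
  choose θs hG hS hL hC using hD
  refine sd_closed lam xi θ.halve θs ⌈dot xi xi⌉₊ hS hL hC (fun k => ?_)
  have hk : (θs k).sum = θ.sum := (hS k).trans hsum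
  obtain ⟨w0, l, h1, h2, h3⟩ :=
    sd_bound lam xi (θs k) L.wl (hk ▸ L.wm) (hG k) (h (θs k) (hG k) hk)
  refine ⟨w0, l, h1, h2, ?_⟩
  have h4 : (l.length : ℝ) ≤ dot xi xi := by
    have : (0 : ℝ) ≤ l.length := Nat.cast_nonneg _
    linarith
  exact_mod_cast h4.trans (Nat.le_ceil _)

end SdTop

end Claimed.Agent.R282
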